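import Vale.Agent.P237.Petty.Lift.Large.Moments

/-!
# P237: continuity of the section means

The mass, the mean excess and the radial relative entropy are continuous at every height; the mean
of the derivative of the potential and the covariance are continuous away from the centre.
-/

namespace Vale.Agent.P237.Petty.Lift.Large

open MeasureTheory Set Filter Topology
open Stam (slice)

variable {g : ℝ → ℝ} {p : ℕ}

section

variable (hg : Regular g)
include hg

theorem continuous_secMass (p : ℕ) : Continuous (secMass p g) := by
  rw [funext (secMass_eq hg p)]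
  exact (continuous_liftDens hg).div_const _

theorem continuous_slice_pow (j k : ℕ) : Continuous (slice j (Stam.core fun t => g t ^ k)) := by
  obtain ⟨C, -, hC⟩ := Stam.core_bound hg
  exact Stam.continuous_slice _ (Stam.measurable_core_pow hg _) (Stam.abs_core_pow_le hC _)
    (Stam.continuousOn_core_pow hg _)

theorem secInt_gaugeH (p : ℕ) (y : ℝ) :
    secInt p g y (gaugeH g y) = secInt p g y (fun r => gaugeN g y r ^ 2) -
      y ^ 2 * secMass p g y - secInt p g y (fun r => r ^ 2) := by
  set A := |y| + 1 + 1 / g 0
  have iN : IntegrableOn (fun r => radW p g y r * gaugeN g y r ^ 2) (Ioi 0) :=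
    integrableOn_sec hg p ((continuous_gaugeN hg y).measurable.pow_const 2) (C := A ^ 2) (j := 2)
      (fun r hr => by
        rw [abs_pow, ← mul_pow, abs_of_nonneg (gaugeN_nonneg hg y r)]
        exact pow_le_pow_left₀ (gaugeN_nonneg hg y r) (size_bounds hg (y := y) (by simp) hr.le) 2) y
  have i1 : IntegrableOn (fun r => radW p g y r * 1) (Ioi 0) :=
    integrableOn_sec hg p measurable_const (C := 1) (j := 0) (fun r _ => by simp) y
  have i2 : IntegrableOn (fun r => radW p g y r * r ^ 2) (Ioi 0) :=
    integrableOn_sec hg p (measurable_id.pow_const 2) (C := 1) (j := 2) (fun r hr => by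
      rw [abs_of_nonneg (by positivity), one_mul]
      exact pow_le_pow_left₀ hr.le (by linarith) 2) y
  have i3 : IntegrableOn (fun r => radW p g y r * gaugeN g y r ^ 2 - y ^ 2 * (radW p g y r * 1))
      (Ioi 0) := iN.sub (i1.const_mul _)
  simp only [secMass, secInt]
  rw [← integral_const_mul, ← integral_sub iN (i1.const_mul _), ← integral_sub i3 i2]
  exact setIntegral_congr_fun measurableSet_Ioi fun r _ => by rw [gaugeH_def, pot]; ring

theorem continuous_hMean (p : ℕ) : Continuous (hMean p g) := by
  have e : hMean p g = fun y => ((slice (p + 4) (Stam.core fun t => g t ^ (p + 1)) y / ((p : ℝ) + 1) -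
      2 * (liftDens p g y / ((p : ℝ) + 1))) - y ^ 2 * secMass p g y -
      slice (p + 4) (Stam.core fun t => g t ^ (p + 3)) y / ((p : ℝ) + 3)) / secMass p g y := by
    funext y
    rw [hMean, condE, secInt_gaugeH hg, (section_values hg p y).2.2, (section_values hg p y).2.1]
  rw [e]
  exact (((((continuous_slice_pow hg _ _).div_const _).sub
    (continuous_const.mul ((continuous_liftDens hg).div_const _))).sub
      ((continuous_pow 2).mul (continuous_secMass hg p))).sub
        ((continuous_slice_pow hg _ _).div_const _)).div (continuous_secMass hg p)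
    fun y => (secMass_pos hg p y).ne'

theorem continuous_radKL (p : ℕ) : Continuous (radKL p g) := by
  rw [funext (radKL_eq hg p)]
  exact ((((continuous_hMean hg p).add (continuous_pow 2)).neg.div_const 2).sub
    ((continuous_secMass hg p).log fun y => (secMass_pos hg p y).ne')).add continuous_const

theorem continuous_gaugeN_left (r : ℝ) : Continuous fun z => gaugeN g z r :=
  (LipschitzWith.of_dist_le_mul (K := 1) fun z z' => by
    rw [Real.dist_eq, Real.dist_eq, NNReal.coe_one, one_mul]
    exact abs_gaugeN_sub hg z' z r).continuous

/-- Away from the centre the derivative of the potential is continuous in the height outside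
countably many radii. -/
theorem ae_continuousAt_potY {y : ℝ} (hy : y ≠ 0) :
    ∀ᵐ r ∂volume.restrict (Ioi (0 : ℝ)), ContinuousAt (fun z => potY g z r) y := by
  set K := {x : ℝ | ¬ContinuousAt (bestTest g) x}
  have hc : ((fun t => y / t * g t) '' K ∪ {|y| * g 1}).Countable :=
    ((monotone_bestTest hg).countable_not_continuousAt.image _).union (countable_singleton _)
  filter_upwards [ae_restrict_of_ae (hc.ae_notMem volume), ae_restrict_mem measurableSet_Ioi]
    with r hr hr0
  rw [mem_union, mem_singleton_iff, not_or] at hr
  rcases lt_or_gt_of_ne hr.2 with h | h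
  · refine ContinuousAt.congr (f := fun z => |z| * (z / |z|)) ?_ ?_
    · exact continuous_abs.continuousAt.mul
        (continuousAt_id.div continuous_abs.continuousAt (abs_ne_zero.2 hy))
    · filter_upwards [(continuous_abs.mul (continuous_const (y := g 1))).continuousAt.eventually_mem
        (Ioi_mem_nhds h), isOpen_ne.mem_nhds hy] with z hz hz0
      rw [potY, gaugeN_face hg hz, bestTest_sign hz0]
  · obtain ⟨h1, h2⟩ := gaugeN_off_face hg h
    have hN : gaugeN g y r ≠ 0 := ((abs_nonneg y).trans_lt h1).ne'
    have hcb : ContinuousAt (bestTest g) (y / gaugeN g y r) := by_contra fun hn =>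
      hr.1 ⟨y / gaugeN g y r, hn, by
        show y / (y / gaugeN g y r) * g (y / gaugeN g y r) = r
        rw [div_div_cancel₀ hy, h2]⟩
    have hNc := (continuous_gaugeN_left hg r).continuousAt (x := y)
    exact hNc.mul (hcb.comp (f := fun z => z / gaugeN g z r) (continuousAt_id.div hNc hN))

/-- A section integral of a product with the derivative of the potential is continuous away from
the centre. -/
theorem continuousAt_secInt_potY (p : ℕ) {y : ℝ} (hy : y ≠ 0) {Φ : ℝ → ℝ → ℝ} {C : ℝ} {j : ℕ}
    (hm : ∀ z, Measurable (Φ z)) (hb : ∀ z r, |z - y| ≤ 1 → 0 < r → |Φ z r| ≤ C * (1 + r) ^ j)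
    (hc : ∀ r, Continuous fun z => Φ z r) :
    ContinuousAt (fun z => secInt p g z fun r => Φ z r * potY g z r) y := by
  set A := |y| + 1 + 1 / g 0
  refine continuousAt_of_dominated (bound := fun r => C * A * envelope p (j + 1) g r)
    (Eventually.of_forall fun z => ((measurable_radW hg z).mul
      ((hm z).mul (measurable_potY hg z))).aestronglyMeasurable) ?_
    ((integrableOn_envelope hg p (j + 1)).const_mul _) ?_
  · filter_upwards [Metric.closedBall_mem_nhds y one_pos] with z hz
    rw [Metric.mem_closedBall, Real.dist_eq] at hz
    filter_upwards [ae_restrict_mem measurableSet_Ioi] with r hr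
    have hr0 : 0 < r := hr
    have hC : 0 ≤ C * (1 + r) ^ j := (abs_nonneg _).trans (hb z r hz hr0)
    rw [Real.norm_eq_abs, abs_mul, abs_mul, radW_def, abs_of_nonneg (by positivity), envelope]
    refine le_trans (mul_le_mul (mul_le_mul_of_nonneg_left (exp_pot_le hg z hr0.le) (by positivity))
      (mul_le_mul (hb z r hz hr0) (abs_potY_le' hg hz hr0.le) (abs_nonneg _) hC)
      (by positivity) (by positivity)) (le_of_eq ?_)
    ring
  · filter_upwards [ae_continuousAt_potY hg hy] with r hr
    have hp : ContinuousAt (fun z => pot g z r) y :=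
      ((continuous_gaugeN_left hg r).continuousAt.pow 2).div_const 2
    simp only [radW_def]
    exact (continuousAt_const.mul hp.neg.rexp).mul ((hc r).continuousAt.mul hr)

theorem continuousAt_meanY (p : ℕ) {y : ℝ} (hy : y ≠ 0) : ContinuousAt (meanY p g) y := by
  have h := continuousAt_secInt_potY hg p hy (Φ := fun _ _ => 1) (C := 1) (j := 0)
    (fun _ => measurable_const) (fun _ _ _ _ => by simp) fun _ => continuous_const
  simp only [one_mul] at h
  exact h.div (continuous_secMass hg p).continuousAt (secMass_pos hg p y).ne'

theorem continuousAt_covY (p : ℕ) {y : ℝ} (hy : y ≠ 0) : ContinuousAt (covY p g) y := by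
  have h := continuousAt_secInt_potY hg p hy (Φ := gaugeH g)
    (C := 2 * (|y| + 1 + 1 / g 0) ^ 2) (j := 2) (fun z => (continuous_gaugeH hg z).measurable)
    (fun z r hz hr => abs_gaugeH_le hg hz hr.le) fun r =>
      (((continuous_gaugeN_left hg r).pow 2).sub (continuous_pow 2)).sub continuous_const
  exact (h.div (continuous_secMass hg p).continuousAt (secMass_pos hg p y).ne').sub
    ((continuous_hMean hg p).continuousAt.mul (continuousAt_meanY hg p hy))

end

end Vale.Agent.P237.Petty.Lift.Large
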