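import Vale.Agent.P237.Petty.Lift.Gauss
import Vale.Agent.P237.Petty.Lift.Density

/-!
# P237: objects of the obstacle free bound in high dimension

For a profile `g` the Gaussian lift has density `exp (-gaugeN g y |w| ^ 2 / 2)` in
`ℝ × ℝ ^ (p + 1)`, where `gaugeN` is the gauge of the body of the profile. The file names the axial law of the
lift, the averages over its sections, and the facts about them that the assembly uses.
-/

namespace Vale.Agent.P237.Petty.Lift.Large

open MeasureTheory Set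

/-- The gauge of the body of a profile at abscissa `y` and radius `r ≥ 0`. -/
noncomputable def gaugeN (g : ℝ → ℝ) (y r : ℝ) : ℝ := Stam.level |y| (Stam.radius g y) r

/-- The radial derivative, from the right, of half the squared gauge. -/
noncomputable def gaugeW (g : ℝ → ℝ) (y r : ℝ) : ℝ :=
  gaugeN g y r * derivWithin (gaugeN g y) (Ioi r) r

/-- The radial score, times the radius. -/
noncomputable def gaugeU (g : ℝ → ℝ) (y r : ℝ) : ℝ := r * gaugeW g y r - r ^ 2

/-- The excess of the squared gauge over that of the ball. -/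
noncomputable def gaugeH (g : ℝ → ℝ) (y r : ℝ) : ℝ := gaugeN g y r ^ 2 - y ^ 2 - r ^ 2

/-- The axial score, times the abscissa. -/
noncomputable def gaugeK (g : ℝ → ℝ) (y r : ℝ) : ℝ := gaugeH g y r - gaugeU g y r

/-- The axial derivative of half the squared gauge, by Euler's identity. -/
noncomputable def gaugeY (g : ℝ → ℝ) (y r : ℝ) : ℝ := y + gaugeK g y r / y

/-- The radial weight of the section at `y`. -/
noncomputable def radW (p : ℕ) (g : ℝ → ℝ) (y r : ℝ) : ℝ :=
  r ^ p * Real.exp (-(gaugeN g y r ^ 2) / 2)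

/-- The mean under a weight on the half line. -/
noncomputable def wmean (q f : ℝ → ℝ) : ℝ :=
  (∫ r in Ioi (0 : ℝ), f r * q r) / ∫ r in Ioi (0 : ℝ), q r

/-- The covariance under a weight on the half line. -/
noncomputable def wcov (q f h : ℝ → ℝ) : ℝ :=
  wmean q fun r => (f r - wmean q f) * (h r - wmean q h)

/-- The variance under a weight on the half line. -/
noncomputable def wvar (q f : ℝ → ℝ) : ℝ := wcov q f f

/-- The mass of a section. -/
noncomputable def mass (p : ℕ) (g : ℝ → ℝ) (y : ℝ) : ℝ := ∫ r in Ioi (0 : ℝ), radW p g y r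

/-- The law of the absolute value of the axial coordinate. -/
noncomputable def axDens (p : ℕ) (g : ℝ → ℝ) (y : ℝ) : ℝ :=
  mass p g y / (radial p * √(Real.pi / 2))

/-- The logarithm of the axial law relative to the Gaussian one. -/
noncomputable def psi (p : ℕ) (g : ℝ → ℝ) (y : ℝ) : ℝ :=
  Real.log (mass p g y / radial p) + y ^ 2 / 2

/-- The axial score relative to the Gaussian one. -/
noncomputable def delta (p : ℕ) (g : ℝ → ℝ) (y : ℝ) : ℝ :=
  wmean (radW p g y) (gaugeY g y) - y

/-- The average excess of a section. -/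
noncomputable def hAv (p : ℕ) (g : ℝ → ℝ) (y : ℝ) : ℝ := wmean (radW p g y) (gaugeH g y)

/-- The average radial score of a section. -/
noncomputable def eAv (p : ℕ) (g : ℝ → ℝ) (y : ℝ) : ℝ := wmean (radW p g y) (gaugeU g y)

/-- The variance of the axial derivative on a section. -/
noncomputable def vY (p : ℕ) (g : ℝ → ℝ) (y : ℝ) : ℝ := wvar (radW p g y) (gaugeY g y)

/-- The covariance of the axial derivative and the excess on a section. -/
noncomputable def covH (p : ℕ) (g : ℝ → ℝ) (y : ℝ) : ℝ :=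
  wcov (radW p g y) (gaugeY g y) (gaugeH g y)

/-- The entropy of a section relative to the Gaussian one, times the axial law. -/
noncomputable def flux (p : ℕ) (g : ℝ → ℝ) (y : ℝ) : ℝ :=
  -(axDens p g y * (hAv p g y / 2 + psi p g y))

/-- A law on the half line with log-concave density and its score relative to the Gaussian one. -/
structure AxLaw (q d : ℝ → ℝ) : Prop where
  cont : ContinuousOn q (Ici 0)
  pos : ∀ y, 0 ≤ y → 0 < q y
  integrable : IntegrableOn q (Ioi 0)
  mass_one : ∫ y in Ioi (0 : ℝ), q y = 1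
  deriv : ∀ y, 0 < y → HasDerivAt q (-((y + d y) * q y)) y
  cont_score : ContinuousOn d (Ioi 0)
  mono : MonotoneOn (fun y => y + d y) (Ioi 0)
  score_nonneg : ∀ y, 0 < y → 0 ≤ y + d y
  integrable_sq : IntegrableOn (fun y => y ^ 2 * q y) (Ioi 0)
  integrable_fisher : IntegrableOn (fun y => q y * d y ^ 2) (Ioi 0)
  integrable_ent : IntegrableOn
    (fun y => q y * (Real.log (q y * √(Real.pi / 2)) + y ^ 2 / 2)) (Ioi 0)

/-- The Fisher information of a law on the half line relative to the Gaussian one. -/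
noncomputable def relFisher (q d : ℝ → ℝ) : ℝ := ∫ y in Ioi (0 : ℝ), q y * d y ^ 2

/-- The entropy of a law on the half line relative to the Gaussian one. -/
noncomputable def relEnt (q : ℝ → ℝ) : ℝ :=
  ∫ y in Ioi (0 : ℝ), q y * (Real.log (q y * √(Real.pi / 2)) + y ^ 2 / 2)

/-- The deficit of the logarithmic Sobolev inequality. -/
noncomputable def deficitY (q d : ℝ → ℝ) : ℝ := relFisher q d - 2 * relEnt q

/-- The bounds of one law on the half line with second moment in a fixed range. -/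
structure LawFacts (C : ℝ) (q d : ℝ → ℝ) : Prop where
  fisher_le : relFisher q d ≤ C * deficitY q d
  ent_nonneg : 0 ≤ relEnt q
  ent_le : relEnt q ≤ C
  ent_le_fisher : 2 * relEnt q ≤ relFisher q d
  zero_ge : C⁻¹ ≤ q 0
  zero_le : q 0 ≤ C
  abs_score : ∫ y in Ioi (0 : ℝ), q y * (∫ s in (0 : ℝ)..y, |d s|) ≤ C * √(relFisher q d)
  slope_ge : ∀ y, C ≤ y → C⁻¹ ≤ y + d y
  dens_le : ∀ y, C ≤ y → q y ≤ C * Real.exp (-(y / C))
  tail_le : ∀ y, C ≤ y → ∫ s in Ioi y, q s ≤ C * Real.exp (-(y / C))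

/-- The derivative identities of the sections of a profile. -/
structure AxisFacts (p : ℕ) (g : ℝ → ℝ) : Prop where
  law : AxLaw (axDens p g) (delta p g)
  psi_eq : ∀ y, 0 ≤ y → psi p g y = Real.log (axDens p g y * √(Real.pi / 2)) + y ^ 2 / 2
  psi_zero : psi p g 0 = ((p : ℝ) + 1) * Real.log (g 0)
  hAv_cont : ContinuousOn (hAv p g) (Ici 0)
  hAv_zero : hAv p g 0 = ((p : ℝ) + 1) * (1 - g 0 ^ 2)
  eAv_eq : ∀ y, 0 < y → eAv p g y = hAv p g y - y * delta p g y
  hAv_deriv : ∀ y, 0 < y → HasDerivAt (hAv p g) (2 * delta p g y - covH p g y) y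
  cov_cont : ContinuousOn (covH p g) (Ioi 0)
  vY_cont : ContinuousOn (vY p g) (Ioi 0)
  flux_cont : ContinuousOn (flux p g) (Ioi 0)
  flux_deriv : ∀ y, 0 < y → HasDerivAt (flux p g)
    (axDens p g y * covH p g y / 2 - (y + delta p g y) * flux p g y) y
  integrable_var : IntegrableOn (fun y => axDens p g y * vY p g y) (Ioi 0)
  integrable_flux : IntegrableOn (flux p g) (Ioi 0)
  second : ∫ y in Ioi (0 : ℝ), y ^ 2 * axDens p g y = secondMom p g

/-- The inequalities of the sections of a profile, with an absolute constant `C`. -/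
structure GaugeFacts (C : ℝ) (p : ℕ) (g : ℝ → ℝ) : Prop where
  vY_nonneg : ∀ y, 0 < y → 0 ≤ vY p g y
  vY_le : ∀ y, 0 < y → vY p g y ≤ (p : ℝ) + 1 + y * (y + delta p g y)
  score_far : ∀ y, 0 < y → y ^ 2 - ((p : ℝ) + 1) ≤ y * (y + delta p g y)
  cov_sq : ∀ y, 0 < y → covH p g y ^ 2 ≤
    C / p * (y ^ 2 * vY p g y + eAv p g y ^ 2) * vY p g y
  cov_sq_abs : ∀ y, 0 < y → y ≤ √p →
    covH p g y ^ 2 ≤ C * (1 + y ^ 2 + Real.log p ^ 2 / p) * vY p g y
  flux_nonneg : ∀ y, 0 < y → 0 ≤ flux p g y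
  flux_le : ∀ y, 0 < y → y ≤ √p →
    flux p g y ≤ C / p * axDens p g y * (y ^ 2 * vY p g y + eAv p g y ^ 2)
  scale_le : ∀ y, 0 < y → axDens p g y * eAv p g y ^ 2 ≤ C * (y ^ 2 + p) * flux p g y

/-- The stability of the logarithmic Sobolev inequality, as the assembly uses it. -/
def LawBound : Prop :=
  ∀ T0 : ℝ, 1 ≤ T0 → ∃ C : ℝ, 1 ≤ C ∧ ∀ q d : ℝ → ℝ, AxLaw q d →
    T0⁻¹ ≤ ∫ y in Ioi (0 : ℝ), y ^ 2 * q y → (∫ y in Ioi (0 : ℝ), y ^ 2 * q y) ≤ T0 →
    LawFacts C q d

/-- The far case: outside a range of the second moment a Gaussian test density suffices. -/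
def FarBound : Prop :=
  ∃ T0 : ℝ, 1 ≤ T0 ∧ ∃ P : ℕ, ∀ p, P ≤ p → ∀ g : ℝ → ℝ, Regular g →
    (∫ t in (-1 : ℝ)..1, g t ^ (p + 1)) = circ (p + 1) →
    secondMom p g < T0⁻¹ ∨ T0 < secondMom p g →
    LargeN.muMin p * entTerm p g (gaussDens (secondMom p g)) ≤ slackTerm p (LargeN.nuMin p) g

/-- The exchange between the slack of the obstacle free bound and the section quantities. -/
def SlackBridge (p : ℕ) (g : ℝ → ℝ) : Prop :=
  ∀ kappa nu : ℝ, nu + kappa / 2 = LargeN.bigL p →
    2 * LargeN.bigL p * (∫ y in Ioi (0 : ℝ), flux p g y) ≤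
      nu * (deficitY (axDens p g) (delta p g) + ∫ y in Ioi (0 : ℝ), axDens p g y * vY p g y) →
    kappa * entTerm p g (liftTest p g) ≤ slackTerm p nu g

/-- The derivative identities and the exchange, for all high orders. -/
def AxisBound : Prop :=
  ∃ P : ℕ, ∀ p, P ≤ p → ∀ g : ℝ → ℝ, Regular g →
    (∫ t in (-1 : ℝ)..1, g t ^ (p + 1)) = circ (p + 1) → AxisFacts p g ∧ SlackBridge p g

/-- The section inequalities, with one constant for all high orders. -/
def GaugeBound : Prop :=
  ∃ C : ℝ, 1 ≤ C ∧ ∃ P : ℕ, ∀ p, P ≤ p → ∀ g : ℝ → ℝ, Regular g →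
    (∫ t in (-1 : ℝ)..1, g t ^ (p + 1)) = circ (p + 1) → GaugeFacts C p g

end Vale.Agent.P237.Petty.Lift.Large
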