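import Vale.Agent.P237.Petty.Lift.Large.Poincare
import Vale.Agent.P237.Petty.Lift.Radial
import Vale.Agent.P237.Petty.Stam.Outer

/-!
# P237: the radial law of the gauge lift at a fixed height

At a height `y` the gauge `N` of the profile body is a convex function of the radius `r`, between
`r / g 0` and `|y| + r / g 0`. With `u = r V_r - r ^ 2`, `h = 2 V - y ^ 2 - r ^ 2` and `V = N ^ 2 / 2`,
the law `r ^ p exp (-V)` has `p Var h ≤ 4 E u ^ 2`, `|u| ≤ |y| r / g 0 + |g 0 ^ -2 - 1| r ^ 2`, the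
moments of a Gaussian, and a Kullback–Leibler distance to the chi law of at most `13 E u ^ 2 / p`.
-/

namespace Vale.Agent.P237.Petty.Lift.Large

open MeasureTheory Set Filter Topology

/-- The gauge of the profile body at height `y` and radius `r`. -/
noncomputable def gaugeN (g : ℝ → ℝ) (y r : ℝ) : ℝ := Stam.level |y| (Stam.radius g y) r

/-- The right derivative of half the square of the gauge. -/
noncomputable def gaugeW (g : ℝ → ℝ) (y r : ℝ) : ℝ :=
  gaugeN g y r * derivWithin (gaugeN g y) (Ioi r) r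

/-- `r V_r - r ^ 2`. -/
noncomputable def gaugeU (g : ℝ → ℝ) (y r : ℝ) : ℝ := r * gaugeW g y r - r ^ 2

/-- `2 V - y ^ 2 - r ^ 2`. -/
noncomputable def gaugeH (g : ℝ → ℝ) (y r : ℝ) : ℝ := gaugeN g y r ^ 2 - y ^ 2 - r ^ 2

/-- `y (V_y - y)`. -/
noncomputable def gaugeK (g : ℝ → ℝ) (y r : ℝ) : ℝ := gaugeH g y r - gaugeU g y r

/-- The radial weight at height `y`. -/
noncomputable def radW (p : ℕ) (g : ℝ → ℝ) (y r : ℝ) : ℝ :=
  r ^ p * Real.exp (-(gaugeN g y r ^ 2 / 2))

/-- The deviation of the top of the profile. -/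
noncomputable def topDev (g : ℝ → ℝ) : ℝ := |1 / g 0 ^ 2 - 1|

/-- The distance of the radial law to the chi law. -/
noncomputable def radKL (p : ℕ) (g : ℝ → ℝ) (y : ℝ) : ℝ :=
  wmean (radW p g y) (fun r => -(gaugeN g y r ^ 2) / 2 + r ^ 2 / 2) -
    Real.log ((∫ r in Ioi (0 : ℝ), radW p g y r) / radial p)

variable {g : ℝ → ℝ} (hg : Regular g)
include hg

theorem abs_le_gaugeN (y r : ℝ) : |y| ≤ gaugeN g y r := Stam.le_level (Stam.rad hg y) r

theorem gaugeN_nonneg (y r : ℝ) : 0 ≤ gaugeN g y r := (abs_nonneg y).trans (abs_le_gaugeN hg y r)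

theorem gaugeN_of_nonpos (y : ℝ) {r : ℝ} (hr : r ≤ 0) : gaugeN g y r = |y| := by
  refine le_antisymm (le_of_forall_gt_imp_ge_of_dense fun w hw => ?_) (abs_le_gaugeN hg y r)
  exact ((Stam.level_lt_iff (Stam.rad hg y)).2
    ⟨hw, hr.trans_lt (Stam.rad_pos (Stam.rad hg y) hw)⟩).le

theorem profile_le_top {t : ℝ} (ht : t ∈ Icc (-1 : ℝ) 1) : g t ≤ g 0 := by
  have h := antitoneOn_of_concave_even hg.concave hg.even
  rcases le_total 0 t with h0 | h0
  · exact h (left_mem_Icc.2 zero_le_one) ⟨h0, ht.2⟩ h0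
  · rw [← hg.even t]
    exact h (left_mem_Icc.2 zero_le_one) ⟨by linarith, by linarith [ht.1]⟩ (by linarith)

theorem div_top_le_gaugeN (y r : ℝ) : r / g 0 ≤ gaugeN g y r := by
  refine le_of_forall_gt_imp_ge_of_dense fun w hw => ?_
  obtain ⟨h1, h2⟩ := (Stam.level_lt_iff (Stam.rad hg y)).1 hw
  have hw0 : 0 ≤ w := (abs_nonneg y).trans h1.le
  rw [div_le_iff₀ hg.pos]
  refine h2.le.trans ?_
  exact mul_le_mul_of_nonneg_left (profile_le_top hg (Ioo_subset_Icc_self (Stam.div_mem h1))) hw0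

theorem gaugeN_mono (y : ℝ) : Monotone (gaugeN g y) := fun r r' hr => by
  refine le_of_forall_gt_imp_ge_of_dense fun w hw => ?_
  obtain ⟨h1, h2⟩ := (Stam.level_lt_iff (Stam.rad hg y)).1 hw
  exact ((Stam.level_lt_iff (Stam.rad hg y)).2 ⟨h1, hr.trans_lt h2⟩).le

theorem gaugeN_sub_le (y : ℝ) {r r' : ℝ} (hr : r ≤ r') :
    gaugeN g y r' ≤ gaugeN g y r + (r' - r) / g 0 := by
  refine le_of_forall_gt_imp_ge_of_dense fun w hw => ?_
  have hw' : gaugeN g y r < w - (r' - r) / g 0 := by linarith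
  obtain ⟨h1, h2⟩ := (Stam.level_lt_iff (Stam.rad hg y)).1 hw'
  have hd : 0 ≤ (r' - r) / g 0 := div_nonneg (sub_nonneg.2 hr) hg.pos.le
  have h := Stam.radius_growth hg h1 (show w - (r' - r) / g 0 ≤ w by linarith)
  rw [sub_sub_cancel, div_mul_cancel₀ _ hg.pos.ne'] at h
  exact ((Stam.level_lt_iff (Stam.rad hg y)).2 ⟨h1.trans_le (by linarith), by linarith⟩).le

theorem gaugeN_le (y : ℝ) {r : ℝ} (hr : 0 ≤ r) : gaugeN g y r ≤ |y| + r / g 0 := by
  have h := gaugeN_sub_le hg y hr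
  rwa [gaugeN_of_nonpos hg y le_rfl, sub_zero] at h

theorem continuous_gaugeN (y : ℝ) : Continuous (gaugeN g y) :=
  Stam.continuous_level (Stam.rad hg y)

theorem radius_concave (y : ℝ) : ConcaveOn ℝ (Ioi |y|) (Stam.radius g y) := by
  refine ⟨convex_Ioi _, fun w hw v hv a b ha hb hab => ?_⟩
  have hw0 : 0 < w := (abs_nonneg y).trans_lt hw
  have hv0 : 0 < v := (abs_nonneg y).trans_lt hv
  simp only [Stam.radius, smul_eq_mul]
  set u := a * w + b * v with hu
  have hu0 : 0 < u := by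
    rcases ha.eq_or_lt with rfl | ha'
    · simp only [zero_add] at hab; subst hab; simp [hu, hv0]
    · positivity
  have h := hg.concave.2 (Ioo_subset_Icc_self (Stam.div_mem (mem_Ioi.1 hw)))
    (Ioo_subset_Icc_self (Stam.div_mem (mem_Ioi.1 hv))) (show 0 ≤ a * w / u by positivity)
    (show 0 ≤ b * v / u by positivity) (by rw [← add_div, ← hu, div_self hu0.ne'])
  simp only [smul_eq_mul] at h
  rw [show a * w / u * (y / w) + b * v / u * (y / v) = y / u by
    field_simp
    linear_combination y * hab] at h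
  refine le_trans (le_of_eq ?_) (mul_le_mul_of_nonneg_left h hu0.le)
  field_simp

theorem gaugeN_convex (y : ℝ) : ConvexOn ℝ univ (gaugeN g y) := by
  refine ⟨convex_univ, fun r _ r' _ a b ha hb hab => ?_⟩
  simp only [smul_eq_mul]
  refine le_of_forall_gt_imp_ge_of_dense fun z hz => ?_
  set e := z - (a * gaugeN g y r + b * gaugeN g y r') with he
  have he0 : 0 < e := by rw [he]; linarith
  obtain ⟨h1, h2⟩ := (Stam.level_lt_iff (Stam.rad hg y)).1
    (show gaugeN g y r < gaugeN g y r + e by linarith)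
  obtain ⟨h3, h4⟩ := (Stam.level_lt_iff (Stam.rad hg y)).1
    (show gaugeN g y r' < gaugeN g y r' + e by linarith)
  have hzz : a * (gaugeN g y r + e) + b * (gaugeN g y r' + e) = z := by
    rw [he]
    linear_combination (z - (a * gaugeN g y r + b * gaugeN g y r')) * hab
  have hm := (radius_concave hg y).1 h1 h3 ha hb hab
  have hc := (radius_concave hg y).2 h1 h3 ha hb hab
  simp only [smul_eq_mul, hzz] at hm hc
  refine ((Stam.level_lt_iff (Stam.rad hg y)).2 ⟨hm, lt_of_lt_of_le ?_ hc⟩).le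
  rcases ha.eq_or_lt with rfl | ha'
  · simp only [zero_add] at hab
    simpa [hab] using h4
  · exact add_lt_add_of_lt_of_le (mul_lt_mul_of_pos_left h2 ha')
      (mul_le_mul_of_nonneg_left h4.le hb)

theorem hasDeriv_gaugeN (y r : ℝ) :
    HasDerivWithinAt (gaugeN g y) (derivWithin (gaugeN g y) (Ioi r) r) (Ioi r) r :=
  (gaugeN_convex hg y).hasDerivWithinAt_rightDeriv_of_mem_interior (by simp)

theorem slope_facts (y : ℝ) {r : ℝ} (hr : 0 < r) :
    (gaugeN g y r - |y|) / r ≤ derivWithin (gaugeN g y) (Ioi r) r ∧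
      derivWithin (gaugeN g y) (Ioi r) r ≤ 1 / g 0 := by
  have hc := gaugeN_convex hg y
  constructor
  · have hlim : Tendsto (slope (gaugeN g y) r) (𝓝[>] r)
        (𝓝 (derivWithin (gaugeN g y) (Ioi r) r)) := by
      refine (hasDerivWithinAt_iff_tendsto_slope' ?_).1 (hasDeriv_gaugeN hg y r)
      simp
    refine ge_of_tendsto hlim ?_
    filter_upwards [self_mem_nhdsWithin] with z hz
    have h := hc.slope_mono_adjacent (mem_univ (0 : ℝ)) (mem_univ z) hr hz
    rw [gaugeN_of_nonpos hg y le_rfl, sub_zero] at h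
    rwa [slope_def_field]
  · refine (hc.rightDeriv_le_slope (mem_univ r) (mem_univ (r + 1)) (by linarith) ?_).trans ?_
    · exact (hasDeriv_gaugeN hg y r).differentiableWithinAt
    · rw [slope_def_field, add_sub_cancel_left, div_one]
      have h := gaugeN_sub_le hg y (show r ≤ r + 1 by linarith)
      rw [add_sub_cancel_left] at h
      linarith

theorem derivWithin_gaugeN_nonneg (y : ℝ) {r : ℝ} (hr : 0 < r) :
    0 ≤ derivWithin (gaugeN g y) (Ioi r) r :=
  le_trans (div_nonneg (sub_nonneg.2 (abs_le_gaugeN hg y r)) hr.le) (slope_facts hg y hr).1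

theorem gaugeW_monotone (y : ℝ) : MonotoneOn (gaugeW g y) (Ioi 0) :=
  fun r hr r' hr' hle => mul_le_mul (gaugeN_mono hg y hle)
    ((gaugeN_convex hg y).monotoneOn_rightDeriv (by simp) (by simp) hle)
    (derivWithin_gaugeN_nonneg hg y hr) (gaugeN_nonneg hg y r')

theorem gaugeW_bounds (y : ℝ) {r : ℝ} (hr : 0 < r) :
    0 ≤ gaugeW g y r ∧ gaugeW g y r ≤ (|y| + r / g 0) / g 0 := by
  refine ⟨mul_nonneg (gaugeN_nonneg hg y r) (derivWithin_gaugeN_nonneg hg y hr), ?_⟩
  refine (mul_le_mul (gaugeN_le hg y hr.le) (slope_facts hg y hr).2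
    (derivWithin_gaugeN_nonneg hg y hr)
    (add_nonneg (abs_nonneg y) (div_nonneg hr.le hg.pos.le))).trans (le_of_eq ?_)
  ring

theorem exists_gaugeW_pos (y : ℝ) : ∃ r1 : ℝ, 0 < r1 ∧ 0 < gaugeW g y r1 := by
  have h0 := hg.pos
  refine ⟨g 0 * (|y| + 1), by positivity, ?_⟩
  have hN : |y| + 1 ≤ gaugeN g y (g 0 * (|y| + 1)) := by
    refine le_trans (le_of_eq ?_) (div_top_le_gaugeN hg y _)
    field_simp
  exact mul_pos (by linarith [abs_nonneg y]) (lt_of_lt_of_le
    (div_pos (by linarith) (by positivity)) (slope_facts hg y (by positivity)).1)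

/-- The bound of `u`. -/
theorem abs_gaugeU_le (y : ℝ) {r : ℝ} (hr : 0 < r) :
    |gaugeU g y r| ≤ |y| * r / g 0 + topDev g * r ^ 2 := by
  have h0 := hg.pos
  set N := gaugeN g y r with hN
  set a := |y| with ha
  set x := r / g 0 with hx
  have hax : a * r / g 0 = a * x := by rw [hx]; ring
  have hx0 : 0 ≤ x := by positivity
  have ha0 : 0 ≤ a := abs_nonneg y
  obtain ⟨hs1, hs2⟩ := slope_facts hg y hr
  have hNn := gaugeN_nonneg hg y r
  have hNa : a ≤ N := abs_le_gaugeN hg y r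
  have hNx : x ≤ N := div_top_le_gaugeN hg y r
  have hsq : x ^ 2 - r ^ 2 = (1 / g 0 ^ 2 - 1) * r ^ 2 := by rw [hx]; field_simp
  have hd := abs_le.1 (show |1 / g 0 ^ 2 - 1| ≤ topDev g from le_rfl)
  have hd1 := mul_le_mul_of_nonneg_right hd.1 (sq_nonneg r)
  have hd2 := mul_le_mul_of_nonneg_right hd.2 (sq_nonneg r)
  have hrW : r * gaugeW g y r = N * (r * derivWithin (gaugeN g y) (Ioi r) r) := by
    rw [gaugeW]; ring
  have hlow : N - a ≤ r * derivWithin (gaugeN g y) (Ioi r) r := by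
    rw [div_le_iff₀ hr] at hs1; linarith
  have hup : r * derivWithin (gaugeN g y) (Ioi r) r ≤ x := by
    refine (mul_le_mul_of_nonneg_left hs2 hr.le).trans (le_of_eq ?_)
    rw [hx]; ring
  have h1 := mul_le_mul_of_nonneg_left hup hNn
  have h2 := mul_le_mul_of_nonneg_left hlow hNn
  have hupper := mul_le_mul_of_nonneg_right (gaugeN_le hg y hr.le) hx0
  rw [gaugeU, hrW, hax, abs_le]
  refine ⟨?_, by nlinarith⟩
  rcases le_total a x with h | h
  · nlinarith [mul_nonneg (sub_nonneg.2 hNx) (by linarith : 0 ≤ N + x - a)]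
  · nlinarith [mul_nonneg hNn (sub_nonneg.2 hNa), mul_le_mul_of_nonneg_right h hx0]

omit hg in
theorem radW_nonneg (p : ℕ) (y : ℝ) {r : ℝ} (hr : 0 < r) : 0 ≤ radW p g y r := by
  unfold radW; positivity

/-- A measurable function of polynomial growth is integrable against the radial weight. -/
theorem integrable_growth (p : ℕ) (y : ℝ) {f : ℝ → ℝ}
    (hf : AEMeasurable f (volume.restrict (Ioi (0 : ℝ)))) {C : ℝ} (k : ℕ)
    (hC : ∀ r, 0 < r → |f r| ≤ C * (1 + r) ^ k) :
    IntegrableOn (fun r => f r * radW p g y r) (Ioi 0) := by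
  have h0 := hg.pos
  set b := 1 / (2 * g 0 ^ 2) with hb
  have hb0 : 0 < b := by positivity
  have hC0 : 0 ≤ C := by
    have h := (abs_nonneg _).trans (hC 1 one_pos)
    exact nonneg_of_mul_nonneg_left h (by positivity)
  have hmaj : IntegrableOn (fun r : ℝ => C * 2 ^ k *
      (r ^ p * Real.exp (-b * r ^ 2) + r ^ (k + p) * Real.exp (-b * r ^ 2))) (Ioi 0) := by
    have hi : ∀ j : ℕ, IntegrableOn (fun r : ℝ => r ^ j * Real.exp (-b * r ^ 2)) (Ioi 0) :=
      fun j => (integrableOn_rpow_mul_exp_neg_mul_sq hb0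
        (s := (j : ℝ)) (by linarith [j.cast_nonneg (α := ℝ)])).congr_fun
        (fun r _ => by simp only [Real.rpow_natCast]) measurableSet_Ioi
    exact ((hi p).add (hi (k + p))).const_mul _
  refine hmaj.mono' (hf.mul ?_).aestronglyMeasurable ?_
  · have hc := continuous_gaugeN hg y
    have : Continuous (radW p g y) := by unfold radW; fun_prop
    exact this.aemeasurable
  filter_upwards [ae_restrict_mem measurableSet_Ioi] with r hr
  have hr' : 0 < r := hr
  rw [norm_mul, Real.norm_eq_abs, Real.norm_of_nonneg (radW_nonneg p y hr')]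
  refine (mul_le_mul_of_nonneg_right (hC r hr') (radW_nonneg p y hr')).trans ?_
  have hexp : Real.exp (-(gaugeN g y r ^ 2 / 2)) ≤ Real.exp (-b * r ^ 2) := by
    refine Real.exp_le_exp.2 ?_
    have h := pow_le_pow_left₀ (by positivity) (div_top_le_gaugeN hg y r) 2
    rw [show -b * r ^ 2 = -((r / g 0) ^ 2 / 2) by rw [hb]; ring]
    linarith
  have hpow : (1 + r) ^ k ≤ 2 ^ k * (1 + r ^ k) := by
    rcases le_total r 1 with h | h
    · exact ((pow_le_pow_left₀ (by positivity) (by linarith : 1 + r ≤ 2) k)).trans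
        (le_mul_of_one_le_right (by positivity) (by linarith [pow_nonneg hr'.le k]))
    · refine (pow_le_pow_left₀ (by positivity) (by linarith : 1 + r ≤ 2 * r) k).trans ?_
      rw [mul_pow]
      exact mul_le_mul_of_nonneg_left (by linarith) (by positivity)
  calc C * (1 + r) ^ k * radW p g y r
      ≤ C * (2 ^ k * (1 + r ^ k)) * (r ^ p * Real.exp (-b * r ^ 2)) :=
        mul_le_mul (mul_le_mul_of_nonneg_left hpow hC0)
          (mul_le_mul_of_nonneg_left hexp (by positivity)) (radW_nonneg p y hr') (by positivity)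
    _ = _ := by ring

theorem integrable_radW (p : ℕ) (y : ℝ) : IntegrableOn (radW p g y) (Ioi 0) :=
  IntegrableOn.congr_fun (integrable_growth hg p y (f := fun _ => (1 : ℝ)) aemeasurable_const
    (C := 1) 0 fun r _ => by simp) (fun r _ => one_mul _) measurableSet_Ioi

theorem integral_radW_pos (p : ℕ) (y : ℝ) : 0 < ∫ r in Ioi (0 : ℝ), radW p g y r := by
  rw [setIntegral_pos_iff_support_of_nonneg_ae
    ((ae_restrict_mem measurableSet_Ioi).mono fun r hr => radW_nonneg p y hr)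
    (integrable_radW hg p y)]
  refine lt_of_lt_of_le ?_ (measure_mono (show Ioi (0 : ℝ) ⊆
    Function.support (radW p g y) ∩ Ioi 0 from
    fun r hr => ⟨(mul_pos (pow_pos (mem_Ioi.1 hr) p) (Real.exp_pos _)).ne', hr⟩))
  simp

theorem aemeasurable_gaugeW (y : ℝ) :
    AEMeasurable (gaugeW g y) (volume.restrict (Ioi (0 : ℝ))) :=
  aemeasurable_restrict_of_monotoneOn measurableSet_Ioi (gaugeW_monotone hg y)

theorem aemeasurable_gaugeU (y : ℝ) :
    AEMeasurable (gaugeU g y) (volume.restrict (Ioi (0 : ℝ))) := by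
  have := aemeasurable_gaugeW hg y
  unfold gaugeU
  fun_prop

/-- Quadratic growth of `N ^ 2`, `u` and `h`. -/
theorem gauge_growth (y : ℝ) : ∃ C : ℝ, ∀ r, 0 < r → gaugeN g y r ^ 2 ≤ C * (1 + r) ^ 2 ∧
    |gaugeU g y r| ≤ C * (1 + r) ^ 2 ∧ |gaugeH g y r| ≤ C * (1 + r) ^ 2 ∧
      |gaugeK g y r| ≤ C * (1 + r) ^ 2 := by
  have h0 := hg.pos
  set C1 := (|y| + 1 / g 0) ^ 2 with hC1
  set C2 := |y| / g 0 + topDev g with hC2
  have hd : 0 ≤ topDev g := abs_nonneg _
  refine ⟨C1 + C2 + (y ^ 2 + 1) + (C1 + (y ^ 2 + 1) + C2), fun r hr => ?_⟩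
  have hN : gaugeN g y r ^ 2 ≤ C1 * (1 + r) ^ 2 := by
    rw [hC1, ← mul_pow]
    refine pow_le_pow_left₀ (gaugeN_nonneg hg y r) ((gaugeN_le hg y hr.le).trans ?_) 2
    have := mul_nonneg (abs_nonneg y) hr.le
    have e : r / g 0 = 1 / g 0 * r := by ring
    nlinarith [show (0 : ℝ) ≤ 1 / g 0 by positivity]
  have hp : r ≤ (1 + r) ^ 2 ∧ r ^ 2 ≤ (1 + r) ^ 2 ∧ 1 ≤ (1 + r) ^ 2 :=
    ⟨by nlinarith, by nlinarith, by nlinarith⟩
  have hU : |gaugeU g y r| ≤ C2 * (1 + r) ^ 2 := by
    refine (abs_gaugeU_le hg y hr).trans ?_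
    rw [hC2, show |y| * r / g 0 = |y| / g 0 * r by ring]
    nlinarith [mul_le_mul_of_nonneg_left hp.1 (show 0 ≤ |y| / g 0 by positivity),
      mul_le_mul_of_nonneg_left hp.2.1 hd]
  have hH : |gaugeH g y r| ≤ (C1 + (y ^ 2 + 1)) * (1 + r) ^ 2 := by
    rw [gaugeH, abs_le]
    constructor <;> nlinarith [sq_nonneg (gaugeN g y r), sq_nonneg y, hp.2.1, hp.2.2,
      mul_le_mul_of_nonneg_left hp.2.2 (sq_nonneg y), sq_nonneg r]
  have n1 : 0 ≤ C1 * (1 + r) ^ 2 := le_trans (sq_nonneg _) hN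
  have n2 : 0 ≤ C2 * (1 + r) ^ 2 := (abs_nonneg _).trans hU
  have n3 : 0 ≤ (y ^ 2 + 1) * (1 + r) ^ 2 := by positivity
  refine ⟨by nlinarith, by nlinarith, by nlinarith, ?_⟩
  rw [gaugeK]
  refine (abs_sub _ _).trans ?_
  nlinarith

/-- `u`, `h`, `y (V_y - y)` and their products of order two are integrable. -/
theorem integrable_gauge (p : ℕ) (y : ℝ) {f k : ℝ → ℝ}
    (hf : f = gaugeU g y ∨ f = gaugeH g y ∨ f = gaugeK g y)
    (hk : k = gaugeU g y ∨ k = gaugeH g y ∨ k = gaugeK g y) :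
    IntegrableOn (fun r => f r * radW p g y r) (Ioi 0) ∧
      IntegrableOn (fun r => f r ^ 2 * radW p g y r) (Ioi 0) ∧
        IntegrableOn (fun r => f r * k r * radW p g y r) (Ioi 0) := by
  obtain ⟨C, hC⟩ := gauge_growth hg y
  have hmU := aemeasurable_gaugeU hg y
  have hmN : AEMeasurable (gaugeN g y) (volume.restrict (Ioi (0 : ℝ))) :=
    (continuous_gaugeN hg y).aemeasurable
  have hmH : AEMeasurable (gaugeH g y) (volume.restrict (Ioi (0 : ℝ))) := by
    unfold gaugeH; fun_prop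
  have hmK : AEMeasurable (gaugeK g y) (volume.restrict (Ioi (0 : ℝ))) := by
    unfold gaugeK; fun_prop
  have hf' : AEMeasurable f (volume.restrict (Ioi (0 : ℝ))) ∧
      ∀ r, 0 < r → |f r| ≤ C * (1 + r) ^ 2 := by
    rcases hf with rfl | rfl | rfl
    exacts [⟨hmU, fun r hr => (hC r hr).2.1⟩, ⟨hmH, fun r hr => (hC r hr).2.2.1⟩,
      ⟨hmK, fun r hr => (hC r hr).2.2.2⟩]
  have hk' : AEMeasurable k (volume.restrict (Ioi (0 : ℝ))) ∧
      ∀ r, 0 < r → |k r| ≤ C * (1 + r) ^ 2 := by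
    rcases hk with rfl | rfl | rfl
    exacts [⟨hmU, fun r hr => (hC r hr).2.1⟩, ⟨hmH, fun r hr => (hC r hr).2.2.1⟩,
      ⟨hmK, fun r hr => (hC r hr).2.2.2⟩]
  refine ⟨integrable_growth hg p y hf'.1 2 hf'.2,
    integrable_growth hg p y (hf'.1.pow_const 2) (C := C ^ 2) 4 fun r hr => ?_,
    integrable_growth hg p y (f := fun r => f r * k r) (hf'.1.mul hk'.1) (C := C ^ 2) 4
      fun r hr => ?_⟩
  · rw [abs_pow]
    refine (pow_le_pow_left₀ (abs_nonneg _) (hf'.2 r hr) 2).trans (le_of_eq ?_)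
    ring
  · rw [abs_mul]
    refine (mul_le_mul (hf'.2 r hr) (hk'.2 r hr) (abs_nonneg _)
      ((abs_nonneg _).trans (hf'.2 r hr))).trans (le_of_eq ?_)
    ring

/-- The radial Poincaré inequality at height `y`. -/
theorem gauge_variance {p : ℕ} (hp : 1 ≤ p) (y : ℝ) {f f' : ℝ → ℝ} (hfc : ContinuousOn f (Ioi 0))
    (hfd : ∀ r, 0 < r → HasDerivWithinAt f (f' r) (Ioi r) r)
    (h1 : IntegrableOn (fun r => f r * radW p g y r) (Ioi 0))
    (h2 : IntegrableOn (fun r => f r ^ 2 * radW p g y r) (Ioi 0))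
    (hint : IntegrableOn (fun r => r ^ 2 * f' r ^ 2 * radW p g y r) (Ioi 0)) :
    (p : ℝ) * wvar (radW p g y) f ≤ wmean (radW p g y) fun r => r ^ 2 * f' r ^ 2 := by
  obtain ⟨r1, hr1, hW1⟩ := exists_gaugeW_pos hg y
  have hc := continuous_gaugeN hg y
  refine radial_variance (V := fun r => gaugeN g y r ^ 2 / 2) hp (by fun_prop) (fun r hr => ?_)
    (gaugeW_monotone hg y) hr1 hW1 (integrable_radW hg p y) hfc hfd h1 h2 hint
  refine (((hasDeriv_gaugeN hg y r).fun_pow 2).div_const 2).congr_deriv ?_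
  simp only [gaugeW, Nat.add_one_sub_one, pow_one]
  push_cast
  ring

/-- The variance of `h`. -/
theorem wvar_gaugeH_le {p : ℕ} (hp : 1 ≤ p) (y : ℝ) :
    (p : ℝ) * wvar (radW p g y) (gaugeH g y) ≤
      4 * wmean (radW p g y) fun r => gaugeU g y r ^ 2 := by
  obtain ⟨h1, h2, -⟩ := integrable_gauge hg p y (f := gaugeH g y) (k := gaugeH g y)
    (by simp) (by simp)
  obtain ⟨-, hu, -⟩ := integrable_gauge hg p y (f := gaugeU g y) (k := gaugeU g y) (by simp) (by simp)
  have hc := continuous_gaugeN hg y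
  have e : ∀ r ∈ Ioi (0 : ℝ), 4 * (gaugeU g y r ^ 2 * radW p g y r) =
      r ^ 2 * (2 * gaugeU g y r / r) ^ 2 * radW p g y r := fun r hr => by
    have : r ≠ 0 := (mem_Ioi.1 hr).ne'
    field_simp
    ring
  refine (gauge_variance hg hp y (f' := fun r => 2 * gaugeU g y r / r)
    (by unfold gaugeH; fun_prop) (fun r hr => ?_) h1 h2
    (IntegrableOn.congr_fun (hu.const_mul 4) e measurableSet_Ioi)).trans (le_of_eq ?_)
  · refine ((((hasDeriv_gaugeN hg y r).fun_pow 2).sub_const (y ^ 2)).sub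
      ((hasDerivWithinAt_id r _).fun_pow 2)).congr_deriv ?_
    simp only [gaugeU, gaugeW, Nat.add_one_sub_one, pow_one, id]
    push_cast
    field_simp
  · rw [wmean, wmean, ← setIntegral_congr_fun measurableSet_Ioi e,
      MeasureTheory.integral_const_mul, mul_div_assoc]

/-- The mean square of `u` by the variance of `y (V_y - y)` and its mean. -/
theorem gaugeU_sq_le_var {p : ℕ} (hp : 16 ≤ p) (y : ℝ) :
    (wmean (radW p g y) fun r => gaugeU g y r ^ 2) ≤
      4 * wvar (radW p g y) (gaugeK g y) + 2 * wmean (radW p g y) (gaugeU g y) ^ 2 := by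
  obtain ⟨u1, u2, -⟩ := integrable_gauge hg p y (f := gaugeU g y) (k := gaugeU g y) (by simp) (by simp)
  obtain ⟨f1, f2, -⟩ := integrable_gauge hg p y (f := gaugeH g y) (k := gaugeH g y) (by simp) (by simp)
  obtain ⟨k1, k2, -⟩ := integrable_gauge hg p y (f := gaugeK g y) (k := gaugeK g y) (by simp) (by simp)
  have hq : ∀ r, 0 < r → 0 ≤ radW p g y r := fun r hr => radW_nonneg p y hr
  have hqi := integrable_radW hg p y
  have hZ := integral_radW_pos hg p y
  have e : (fun r => gaugeH g y r - gaugeK g y r) = gaugeU g y := funext fun r => by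
    simp [gaugeK]
  have hs := wvar_sub_le hq hqi hZ f1 f2 k1 k2
    (by simpa only [gaugeK, sub_sub_cancel] using u1)
    (by simpa only [gaugeK, sub_sub_cancel] using u2)
  rw [e] at hs
  have hm := wmean_sq hqi hZ u1 u2
  have hh := wvar_gaugeH_le hg (by omega : 1 ≤ p) y
  have hp' : (16 : ℝ) ≤ p := by exact_mod_cast hp
  nlinarith [wvar_nonneg (f := gaugeH g y) hq]

/-- The recursion of the moments. -/
theorem moment_step (p : ℕ) (y : ℝ) (hd : topDev g ≤ 1 / 4) (j : ℕ) :
    ∫ r in Ioi (0 : ℝ), r ^ (j + 2) * radW p g y r ≤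
      2 * ((p : ℝ) + j + 1 + (|y| / g 0) ^ 2) * ∫ r in Ioi (0 : ℝ), r ^ j * radW p g y r := by
  have hI : ∀ i : ℕ, IntegrableOn (fun r => r ^ i * radW p g y r) (Ioi 0) := fun i =>
    integrable_growth hg p y (f := fun r => r ^ i) (by fun_prop) (C := 1) i fun r hr => by
      rw [one_mul, abs_of_pos (pow_pos hr i)]
      exact pow_le_pow_left₀ hr.le (by linarith) i
  set A := (p : ℝ) + j + 1 + (|y| / g 0) ^ 2 with hA
  set E := fun r => Real.exp (-(gaugeN g y r ^ 2 / 2)) with hE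
  set φ := fun r => A * (r ^ j * radW p g y r) - 1 / 2 * (r ^ (j + 2) * radW p g y r) with hφ
  have hφi : IntegrableOn φ (Ioi 0) := ((hI j).const_mul A).sub ((hI (j + 2)).const_mul (1 / 2))
  have hc := continuous_gaugeN hg y
  have key : ∀ R, 0 ≤ R → 0 ≤ ∫ r in (0 : ℝ)..R, φ r := by
    intro R hR
    have hψd : ∀ r ∈ Ioo (0 : ℝ) R, HasDerivWithinAt (fun x => x ^ (p + j + 1) * E x)
        (((p : ℝ) + j + 1) * r ^ (p + j) * E r - r ^ (p + j + 1) * (gaugeW g y r * E r))
        (Ioi r) r := fun r hr => by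
      refine (((hasDerivWithinAt_id r _).fun_pow (p + j + 1)).fun_mul
        ((((hasDeriv_gaugeN hg y r).fun_pow 2).div_const 2).fun_neg.exp)).congr_deriv ?_
      simp only [hE, gaugeW, Nat.add_one_sub_one, pow_one, id]
      push_cast
      ring
    have hle : ∀ r ∈ Ioo (0 : ℝ) R,
        ((p : ℝ) + j + 1) * r ^ (p + j) * E r - r ^ (p + j + 1) * (gaugeW g y r * E r) ≤ φ r :=
      fun r hr => by
      have hu := abs_le.1 (abs_gaugeU_le hg y hr.1)
      rw [gaugeU] at hu
      have hq : |y| * r / g 0 = |y| / g 0 * r := by ring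
      have hsq := sq_nonneg (|y| / g 0 - r / 2)
      have hd' := mul_le_mul_of_nonneg_right hd (sq_nonneg r)
      have hW : r ^ 2 / 2 - (|y| / g 0) ^ 2 ≤ r * gaugeW g y r := by nlinarith
      have hnn : 0 ≤ r ^ (p + j) * E r := mul_nonneg (pow_nonneg hr.1.le _) (Real.exp_pos _).le
      have h := mul_le_mul_of_nonneg_left hW hnn
      refine le_trans ?_ (le_of_eq (show (r ^ (p + j) * E r) *
        ((p : ℝ) + j + 1 - (r ^ 2 / 2 - (|y| / g 0) ^ 2)) = φ r by
          simp only [hφ, radW, hA, hE, pow_add]; ring))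
      rw [pow_succ]
      nlinarith
    have hφR : IntegrableOn φ (Icc 0 R) := by
      rw [integrableOn_Icc_iff_integrableOn_Ioc]
      exact hφi.mono_set Ioc_subset_Ioi_self
    have h := intervalIntegral.sub_le_integral_of_hasDeriv_right_of_le hR
      (by simp only [hE]; fun_prop) hψd hφR hle
    have h0 : (0 : ℝ) ≤ R ^ (p + j + 1) * E R := mul_nonneg (pow_nonneg hR _) (Real.exp_pos _).le
    rw [zero_pow (by omega)] at h
    linarith
  have hlim : 0 ≤ ∫ r in Ioi (0 : ℝ), φ r := ge_of_tendsto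
    (intervalIntegral_tendsto_integral_Ioi 0 hφi tendsto_id)
    ((eventually_ge_atTop 0).mono fun R hR => key R hR)
  simp only [hφ] at hlim
  rw [MeasureTheory.integral_sub ((hI j).const_mul A) ((hI (j + 2)).const_mul (1 / 2)),
    MeasureTheory.integral_const_mul, MeasureTheory.integral_const_mul] at hlim
  linarith

/-- The second and fourth moments and the mean square of `u`. -/
theorem moments_le {p : ℕ} (y : ℝ) (hd : topDev g ≤ 1 / 4) :
    wmean (radW p g y) (fun r => r ^ 2) ≤ 2 * ((p : ℝ) + 3 + y ^ 2 / g 0 ^ 2) ∧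
      wmean (radW p g y) (fun r => r ^ 4) ≤ 4 * ((p : ℝ) + 3 + y ^ 2 / g 0 ^ 2) ^ 2 ∧
        (wmean (radW p g y) fun r => gaugeU g y r ^ 2) ≤
          4 * (y ^ 2 / g 0 ^ 2) * ((p : ℝ) + 3 + y ^ 2 / g 0 ^ 2) +
            8 * topDev g ^ 2 * ((p : ℝ) + 3 + y ^ 2 / g 0 ^ 2) ^ 2 := by
  have hZ := integral_radW_pos hg p y
  set Z := ∫ r in Ioi (0 : ℝ), radW p g y r with hZd
  set A := (p : ℝ) + 3 + y ^ 2 / g 0 ^ 2 with hA
  have hsq : (|y| / g 0) ^ 2 = y ^ 2 / g 0 ^ 2 := by rw [div_pow, sq_abs]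
  have hA0 : 0 ≤ A := by positivity
  have h2 : ∫ r in Ioi (0 : ℝ), r ^ 2 * radW p g y r ≤ 2 * A * Z := by
    have h := moment_step hg p y hd 0
    simp only [Nat.zero_add, pow_zero, one_mul, Nat.cast_zero, add_zero] at h
    refine h.trans (mul_le_mul_of_nonneg_right ?_ hZ.le)
    rw [hA, hsq]; linarith
  have h4 : ∫ r in Ioi (0 : ℝ), r ^ 4 * radW p g y r ≤ 4 * A ^ 2 * Z := by
    have h := moment_step hg p y hd 2
    push_cast at h
    rw [show (p : ℝ) + 2 + 1 + (|y| / g 0) ^ 2 = A by rw [hA, hsq]; ring] at h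
    refine h.trans ?_
    nlinarith [mul_le_mul_of_nonneg_left h2 (show 0 ≤ 2 * A by positivity)]
  have m2 : wmean (radW p g y) (fun r => r ^ 2) ≤ 2 * A := by
    rw [wmean, div_le_iff₀ hZ]; exact h2
  have m4 : wmean (radW p g y) (fun r => r ^ 4) ≤ 4 * A ^ 2 := by
    rw [wmean, div_le_iff₀ hZ]; exact h4
  refine ⟨m2, m4, ?_⟩
  obtain ⟨-, hu, -⟩ := integrable_gauge hg p y (f := gaugeU g y) (k := gaugeU g y) (by simp) (by simp)
  have i : ∀ j : ℕ, IntegrableOn (fun r => r ^ j * radW p g y r) (Ioi 0) := fun j =>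
    integrable_growth hg p y (f := fun r => r ^ j) (by fun_prop) (C := 1) j fun r hr => by
      rw [one_mul, abs_of_pos (pow_pos hr j)]
      exact pow_le_pow_left₀ hr.le (by linarith) j
  have hmaj : IntegrableOn (fun r => (2 * (y ^ 2 / g 0 ^ 2) * r ^ 2 +
      2 * topDev g ^ 2 * r ^ 4) * radW p g y r) (Ioi 0) :=
    IntegrableOn.congr_fun (((i 2).const_mul (2 * (y ^ 2 / g 0 ^ 2))).add
      ((i 4).const_mul (2 * topDev g ^ 2))) (fun r _ => by simp only [Pi.add_apply]; ring)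
      measurableSet_Ioi
  refine (wmean_mono (fun r hr => radW_nonneg p y hr) hu hmaj fun r hr => ?_).trans ?_
  · have h := abs_gaugeU_le hg y hr
    have h' := pow_le_pow_left₀ (abs_nonneg _) h 2
    rw [sq_abs] at h'
    refine h'.trans ?_
    rw [← hsq, show |y| * r / g 0 = |y| / g 0 * r by ring]
    nlinarith [sq_nonneg (|y| / g 0 * r - topDev g * r ^ 2)]
  · have e : (wmean (radW p g y) fun r => 2 * (y ^ 2 / g 0 ^ 2) * r ^ 2 +
        2 * topDev g ^ 2 * r ^ 4) = 2 * (y ^ 2 / g 0 ^ 2) * wmean (radW p g y) (fun r => r ^ 2) +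
        2 * topDev g ^ 2 * wmean (radW p g y) (fun r => r ^ 4) := by
      simp only [wmean]
      rw [setIntegral_congr_fun measurableSet_Ioi (g := fun r =>
        2 * (y ^ 2 / g 0 ^ 2) * (r ^ 2 * radW p g y r) +
          2 * topDev g ^ 2 * (r ^ 4 * radW p g y r)) fun r _ => by ring,
        MeasureTheory.integral_add ((i 2).const_mul _) ((i 4).const_mul _),
        MeasureTheory.integral_const_mul, MeasureTheory.integral_const_mul]
      ring
    rw [e]
    nlinarith [mul_le_mul_of_nonneg_left m2 (show 0 ≤ 2 * (y ^ 2 / g 0 ^ 2) by positivity),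
      mul_le_mul_of_nonneg_left m4 (show 0 ≤ 2 * topDev g ^ 2 by positivity)]

omit hg in
/-- `log (1 - x) + x` is at most `- x ^ 2 / 2`. -/
theorem log_sub_bound {x : ℝ} (h0 : 0 ≤ x) (h1 : x < 1) :
    Real.log (1 - x) + x ≤ -(x ^ 2 / 2) := by
  have hd : ∀ u ∈ Ico (0 : ℝ) x, HasDerivWithinAt (fun t => Real.log (1 - t) + t + t ^ 2 / 2)
      (-(u ^ 2) / (1 - u)) (Ici u) u := fun u hu => by
    have h2 : (1 : ℝ) - u ≠ 0 := by linarith [hu.2]
    refine HasDerivAt.hasDerivWithinAt ?_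
    refine ((((hasDerivAt_id u).const_sub 1).log h2).add (hasDerivAt_id u)).add
      ((hasDerivAt_pow 2 u).div_const 2) |>.congr_deriv ?_
    simp only [id]
    push_cast
    field_simp
    ring
  have hc : ContinuousOn (fun t => Real.log (1 - t) + t + t ^ 2 / 2) (Icc 0 x) := fun t ht => by
    have h2 : (1 : ℝ) - t ≠ 0 := by linarith [ht.2]
    exact ContinuousAt.continuousWithinAt (by fun_prop (disch := assumption))
  have h := image_le_of_deriv_right_le_deriv_boundary hc hd (B := fun _ => (0 : ℝ)) (B' := fun _ => 0)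
    (by simp) continuousOn_const (fun u _ => hasDerivWithinAt_const u _ 0)
    (fun u hu => div_nonpos_of_nonpos_of_nonneg (by nlinarith) (by linarith [hu.2]))
    (right_mem_Icc.2 h0)
  linarith

/-- The supremum of the radial transport is at most `13 u ^ 2 / p`. -/
theorem transport_sup_le {p : ℕ} (hp : 1 ≤ p) {y : ℝ} (hy : y ^ 2 ≤ p) (hg0 : 1 / 2 ≤ g 0)
    (hd : topDev g ≤ 1 / 4) {r v : ℝ} (hr : 0 < r) (hv : v < r) :
    (r - gaugeW g y r) * v - v ^ 2 / 2 + (p : ℝ) * (Real.log (1 - v / r) + v / r) ≤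
      13 * gaugeU g y r ^ 2 / p := by
  obtain ⟨x, rfl⟩ : ∃ x, v = r * x := ⟨v / r, by field_simp⟩
  have hx1 : x < 1 := by nlinarith
  rw [mul_div_cancel_left₀ x hr.ne']
  set u := gaugeU g y r with hu
  have hsu : (r - gaugeW g y r) * (r * x) = -(u * x) := by rw [hu, gaugeU]; ring
  rw [hsu]
  have hp' : (1 : ℝ) ≤ p := by exact_mod_cast hp
  have hp0 : (0 : ℝ) < p := by linarith
  rcases le_or_gt 0 x with hx | hx
  · have hl : Real.log (1 - x) + x ≤ -(x ^ 2 / 2) := by
      exact log_sub_bound hx hx1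
    rw [le_div_iff₀ hp0]
    nlinarith [mul_le_mul_of_nonneg_left hl hp0.le, sq_nonneg (u + p * x), sq_nonneg (r * x)]
  · set z := -x with hz
    have hz0 : 0 < z := neg_pos.2 hx
    have hl : Real.log (1 - x) + x ≤ -(3 * z ^ 2 / (6 + 4 * z)) := by
      have h := log_one_add_le hz0.le
      have he : z * (6 + z) / (6 + 4 * z) - z = -(3 * z ^ 2 / (6 + 4 * z)) := by field_simp; ring
      rw [show 1 - x = 1 + z by ring, show x = -z by ring]
      linarith
    have hpl := mul_le_mul_of_nonneg_left hl hp0.le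
    have h3 : 0 ≤ (p : ℝ) * (3 * z ^ 2 / (6 + 4 * z)) := by positivity
    have hU : 0 ≤ 13 * u ^ 2 / p := by positivity
    rcases le_or_gt u 0 with hu0 | hu0
    · nlinarith [mul_nonneg (neg_nonneg.2 hu0) hz0.le, sq_nonneg (r * x)]
    rcases le_or_gt u ((p : ℝ) / 2) with hup | hup
    · have key : u * z - (p : ℝ) * (3 * z ^ 2 / (6 + 4 * z)) ≤ 13 * u ^ 2 / p := by
        rw [mul_div_assoc', sub_div' (by positivity), div_le_div_iff₀ (by positivity) hp0]
        nlinarith [sq_nonneg (3 * u - p * z), mul_nonneg (mul_nonneg hp0.le (sq_nonneg z))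
          (show 0 ≤ 2 * p - 4 * u by linarith), mul_nonneg (sq_nonneg u) hz0.le]
      nlinarith [sq_nonneg (r * x)]
    · -- here the radius is not small
      have hr2 : (p : ℝ) / 26 ≤ r ^ 2 := by
        by_contra hlt
        rw [not_le] at hlt
        have h := (abs_le.1 (abs_gaugeU_le hg y hr)).2
        have hK : |y| * r / g 0 ≤ 2 * (|y| * r) := by
          rw [div_le_iff₀ hg.pos]
          nlinarith [mul_nonneg (abs_nonneg y) hr.le]
        have h5 := sq_nonneg (|y| - 5 * r)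
        rw [sub_sq, sq_abs] at h5
        nlinarith [mul_le_mul_of_nonneg_right hd (sq_nonneg r)]
      have key : u * z - (r * z) ^ 2 / 2 ≤ 13 * u ^ 2 / p := by
        rw [le_div_iff₀ hp0]
        nlinarith [mul_nonneg hp0.le (sq_nonneg (u - r ^ 2 * z)),
          mul_le_mul_of_nonneg_left hr2 (sq_nonneg u)]
      nlinarith

/-- The distance of the radial law to the chi law. -/
theorem radKL_le {p : ℕ} (hp : 1 ≤ p) {y : ℝ} (hy : y ^ 2 ≤ p) (hg0 : 1 / 2 ≤ g 0)
    (hd : topDev g ≤ 1 / 4) :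
    radKL p g y ≤ 13 / p * wmean (radW p g y) fun r => gaugeU g y r ^ 2 := by
  have hc := continuous_gaugeN hg y
  set ℓ := fun r => -(gaugeN g y r ^ 2) / 2 + r ^ 2 / 2 with hℓ
  obtain ⟨-, hu, -⟩ := integrable_gauge hg p y (f := gaugeU g y) (k := gaugeU g y) (by simp) (by simp)
  obtain ⟨C, hC⟩ := gauge_growth hg y
  have hρℓ : IntegrableOn (fun r => radW p g y r * ℓ r) (Ioi 0) :=
    IntegrableOn.congr_fun (integrable_growth hg p y (f := ℓ) (by simp only [hℓ]; fun_prop)
      (C := C + 1) 2 fun r hr => by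
        simp only [hℓ]
        rw [abs_le]
        constructor <;> nlinarith [(hC r hr).1, sq_nonneg (gaugeN g y r), sq_nonneg r,
          show r ^ 2 ≤ (1 + r) ^ 2 by nlinarith])
      (fun r _ => mul_comm _ _) measurableSet_Ioi
  have hρG : IntegrableOn (fun r => radW p g y r * (13 * gaugeU g y r ^ 2 / p)) (Ioi 0) :=
    IntegrableOn.congr_fun (hu.const_mul (13 / (p : ℝ))) (fun r _ => by ring) measurableSet_Ioi
  have h := radial_transport (n := p) (a := 0) (ρ := radW p g y) (w := id) (w' := fun _ => 1)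
    (ℓ := ℓ) (s := fun r => r - gaugeW g y r) (G := fun r => 13 * gaugeU g y r ^ 2 / p)
    (by unfold radW; fun_prop) (integrable_radW hg p y) (fun R _ => hasDerivAt_id R)
    (fun R hR => hR) (fun R _ => one_pos) (tendsto_id.mono_left nhdsWithin_le_nhds) tendsto_id
    (fun R _ => by
      simp only [radW, hℓ, Stam.wt, id, mul_one]
      rw [mul_comm (Real.exp _), mul_assoc, ← Real.exp_add]
      congr 2
      ring)
    (by simp only [hℓ]; fun_prop)
    (fun R hR => by
      refine ((((hasDeriv_gaugeN hg y R).fun_pow 2).neg.div_const 2).add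
        (((hasDerivWithinAt_id R _).fun_pow 2).div_const 2)).congr_deriv ?_
      simp only [gaugeW, Nat.add_one_sub_one, pow_one, id, mul_one]
      push_cast
      ring)
    (fun R hR v hv => transport_sup_le hg hp hy hg0 hd hR hv) hρℓ hρG
  have hZ := integral_radW_pos hg p y
  have e1 : ∫ r in Ioi (0 : ℝ), radW p g y r * ℓ r = ∫ r in Ioi (0 : ℝ), ℓ r * radW p g y r :=
    setIntegral_congr_fun measurableSet_Ioi fun r _ => mul_comm _ _
  have e2 : ∫ r in Ioi (0 : ℝ), radW p g y r * (13 * gaugeU g y r ^ 2 / p) =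
      13 / p * ∫ r in Ioi (0 : ℝ), gaugeU g y r ^ 2 * radW p g y r := by
    rw [← MeasureTheory.integral_const_mul]
    exact setIntegral_congr_fun measurableSet_Ioi fun r _ => by ring
  rw [e1, e2] at h
  simp only [hℓ] at h
  rw [radKL, wmean, wmean]
  rw [← mul_div_assoc, div_sub' hZ.ne', div_le_div_iff_of_pos_right hZ]
  linarith

/-- The covariance of `h` with any square integrable function. -/
theorem wcov_gaugeH_sq_le {p : ℕ} (hp : 1 ≤ p) (y : ℝ) (hd : topDev g ≤ 1 / 4) {f : ℝ → ℝ}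
    (f1 : IntegrableOn (fun r => f r * radW p g y r) (Ioi 0))
    (f2 : IntegrableOn (fun r => f r ^ 2 * radW p g y r) (Ioi 0))
    (hf : IntegrableOn (fun r => gaugeH g y r * f r * radW p g y r) (Ioi 0)) :
    (p : ℝ) * wcov (radW p g y) (gaugeH g y) f ^ 2 ≤
      4 * (4 * (y ^ 2 / g 0 ^ 2) * ((p : ℝ) + 3 + y ^ 2 / g 0 ^ 2) +
        8 * topDev g ^ 2 * ((p : ℝ) + 3 + y ^ 2 / g 0 ^ 2) ^ 2) * wvar (radW p g y) f := by
  obtain ⟨h1, h2, -⟩ := integrable_gauge hg p y (f := gaugeH g y) (k := gaugeH g y)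
    (by simp) (by simp)
  have hq : ∀ r, 0 < r → 0 ≤ radW p g y r := fun r hr => radW_nonneg p y hr
  have hp0 : (0 : ℝ) ≤ p := Nat.cast_nonneg p
  have hc := wcov_sq_le hq (integrable_radW hg p y) (integral_radW_pos hg p y) h1 h2 f1 f2 hf
  refine (mul_le_mul_of_nonneg_left hc hp0).trans ?_
  rw [← mul_assoc]
  refine mul_le_mul_of_nonneg_right ?_ (wvar_nonneg hq)
  exact (wvar_gaugeH_le hg hp y).trans (by linarith [(moments_le hg (p := p) y hd).2.2])

/-- The radial law is even in the height. -/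
theorem gaugeN_even (y : ℝ) : gaugeN g (-y) = gaugeN g y := by
  have e : Stam.radius g (-y) = Stam.radius g y := funext fun w => by
    simp [Stam.radius, neg_div, hg.even]
  funext r
  simp [gaugeN, e]

end Vale.Agent.P237.Petty.Lift.Large
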