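import Vale.Agent.P237.Petty.Lift.Large.Defs

/-!
# P237: the gauge of a profile body in the variables `(y, r)`

`gaugeN g y r` is the gauge at height `y` and radius `r` of the body with the profile `g`. It is a
norm of the height, and at every height other than the centre it is differentiable in the height
outside countably many radii, with derivative the best test function at the ray.
-/

namespace Vale.Agent.P237.Petty.Lift.Large

open MeasureTheory Set Filter Topology

variable {g : ℝ → ℝ}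

/-- The potential of the Gaussian lift. -/
noncomputable def pot (g : ℝ → ℝ) (y r : ℝ) : ℝ := gaugeN g y r ^ 2 / 2

/-- The derivative of the potential in the height. -/
noncomputable def potY (g : ℝ → ℝ) (y r : ℝ) : ℝ := gaugeN g y r * bestTest g (y / gaugeN g y r)

section

variable (hg : Regular g)
include hg

theorem abs_le_gaugeN (y r : ℝ) : |y| ≤ gaugeN g y r := Stam.le_level (Stam.rad hg y) r

theorem gaugeN_nonneg (y r : ℝ) : 0 ≤ gaugeN g y r := (abs_nonneg y).trans (abs_le_gaugeN hg y r)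

theorem lt_gaugeN_iff {y r R : ℝ} : gaugeN g y r < R ↔ |y| < R ∧ r < R * g (y / R) :=
  Stam.level_lt_iff (Stam.rad hg y)

theorem continuous_gaugeN (y : ℝ) : Continuous (gaugeN g y) := Stam.continuous_level (Stam.rad hg y)

theorem profile_le_top {t : ℝ} (ht : t ∈ Icc (-1 : ℝ) 1) : g t ≤ g 0 := by
  have key : ∀ x ∈ Icc (0 : ℝ) 1, g x ≤ g 0 := fun x hx =>
    antitoneOn_of_concave_even hg.concave hg.even (left_mem_Icc.2 zero_le_one) hx hx.1
  rcases abs_choice t with e | e
  · exact key t ⟨e ▸ abs_nonneg t, ht.2⟩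
  · rw [← hg.even t]
    exact key (-t) ⟨e ▸ abs_nonneg t, by linarith [ht.1]⟩

theorem div_le_gaugeN (y r : ℝ) : r / g 0 ≤ gaugeN g y r := by
  refine le_of_forall_gt_imp_ge_of_dense fun R hR => ?_
  obtain ⟨h1, h2⟩ := (lt_gaugeN_iff hg).1 hR
  rw [div_le_iff₀ hg.pos]
  exact h2.le.trans (mul_le_mul_of_nonneg_left
    (profile_le_top hg (Ioo_subset_Icc_self (Stam.div_mem h1))) ((abs_nonneg y).trans h1.le))

theorem gaugeN_le (y : ℝ) {r : ℝ} (hr : 0 ≤ r) : gaugeN g y r ≤ |y| + r / g 0 := by
  refine le_of_forall_gt_imp_ge_of_dense fun R hR => ((lt_gaugeN_iff hg).2 ?_).le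
  have h0 := div_nonneg hr hg.pos.le
  have h1 : |y| < R := by linarith
  have hR0 : 0 < R := (abs_nonneg y).trans_lt h1
  refine ⟨h1, ?_⟩
  have hc : g 0 * (1 - |y / R|) ≤ g (y / R) := by
    have key : ∀ x ∈ Icc (0 : ℝ) 1, g 0 * (1 - x) ≤ g x := fun x hx => by
      have h := hg.concave.2 (show (0 : ℝ) ∈ Icc (-1 : ℝ) 1 by norm_num)
        (show (1 : ℝ) ∈ Icc (-1 : ℝ) 1 by norm_num) (sub_nonneg.2 hx.2) hx.1 (by ring)
      simp only [smul_eq_mul, mul_zero, zero_add, mul_one] at h
      nlinarith [hg.nonneg 1 (by norm_num), hx.1]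
    have ht := Ioo_subset_Icc_self (Stam.div_mem h1)
    have h := key |y / R| ⟨abs_nonneg _, abs_le.2 ht⟩
    rcases abs_choice (y / R) with e | e <;> rw [e] at h ⊢
    · exact h
    · rwa [hg.even] at h
  have h2 := mul_le_mul_of_nonneg_left hc hR0.le
  rw [abs_div, abs_of_pos hR0,
    show R * (g 0 * (1 - |y| / R)) = g 0 * (R - |y|) by field_simp] at h2
  have h3 : r / g 0 < R - |y| := by linarith
  rw [div_lt_iff₀ hg.pos] at h3
  linarith

theorem gaugeN_pos (y : ℝ) {r : ℝ} (hr : 0 < r) : 0 < gaugeN g y r :=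
  lt_of_lt_of_le (div_pos hr hg.pos) (div_le_gaugeN hg y r)

/-- The gauge is a norm of the height: moving the height costs at most its length. -/
theorem gaugeN_add_le (y d : ℝ) (r : ℝ) : gaugeN g (y + d) r ≤ gaugeN g y r + |d| := by
  refine le_of_forall_gt_imp_ge_of_dense fun X hX => ?_
  have hR : gaugeN g y r < X - |d| := by linarith
  obtain ⟨h1, h2⟩ := (lt_gaugeN_iff hg).1 hR
  set R := X - |d| with hRdef
  have hR0 : 0 < R := (abs_nonneg y).trans_lt h1
  refine ((lt_gaugeN_iff hg).2 ⟨(abs_add_le y d).trans_lt (by linarith), ?_⟩).le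
  have hX0 : 0 < X := by linarith [abs_nonneg d]
  rcases eq_or_ne d 0 with rfl | hd
  · simpa [hRdef] using h2
  have hd0 : 0 < |d| := abs_pos.2 hd
  have hmem : d / |d| ∈ Icc (-1 : ℝ) 1 := by
    rcases abs_choice d with e | e <;> rw [e] <;> simp [hd]
  have h := hg.concave.2 (Ioo_subset_Icc_self (Stam.div_mem h1)) hmem
    (show 0 ≤ R / X by positivity) (show 0 ≤ |d| / X by positivity)
    (by rw [← add_div, hRdef, sub_add_cancel, div_self hX0.ne'])
  simp only [smul_eq_mul] at h
  rw [show R / X * (y / R) + |d| / X * (d / |d|) = (y + d) / X by field_simp] at h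
  have h3 := mul_le_mul_of_nonneg_left h hX0.le
  rw [show X * (R / X * g (y / R) + |d| / X * g (d / |d|)) =
    R * g (y / R) + |d| * g (d / |d|) by field_simp] at h3
  nlinarith [mul_nonneg hd0.le (hg.nonneg _ hmem)]

theorem abs_gaugeN_sub (y y' r : ℝ) :
    |gaugeN g y' r - gaugeN g y r| ≤ |y' - y| := by
  have h1 := gaugeN_add_le hg y (y' - y) r
  have h2 := gaugeN_add_le hg y' (y - y') r
  rw [show y + (y' - y) = y' by ring] at h1
  rw [show y' + (y - y') = y by ring, abs_sub_comm] at h2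
  exact abs_le.2 ⟨by linarith, by linarith⟩

theorem gaugeN_face {y r : ℝ} (h : r < |y| * g 1) : gaugeN g y r = |y| := by
  refine le_antisymm (le_of_forall_gt_imp_ge_of_dense fun R hR => ((lt_gaugeN_iff hg).2 ?_).le)
    (abs_le_gaugeN hg y r)
  refine ⟨hR, h.trans_le ?_⟩
  have ht := Ioo_subset_Icc_self (Stam.div_mem hR)
  have h1 : g 1 ≤ g (y / R) := by
    have key : ∀ x ∈ Icc (0 : ℝ) 1, g 1 ≤ g x := fun x hx =>
      antitoneOn_of_concave_even hg.concave hg.even hx (right_mem_Icc.2 zero_le_one) hx.2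
    rcases abs_choice (y / R) with e | e
    · exact key _ ⟨e ▸ abs_nonneg _, ht.2⟩
    · rw [← hg.even (y / R)]
      exact key _ ⟨e ▸ abs_nonneg _, by linarith [ht.1]⟩
  exact (mul_le_mul_of_nonneg_right hR.le (hg.nonneg 1 (by norm_num))).trans
    (mul_le_mul_of_nonneg_left h1 ((abs_nonneg y).trans hR.le))

theorem gaugeN_off_face {y r : ℝ} (h : |y| * g 1 < r) :
    |y| < gaugeN g y r ∧ gaugeN g y r * g (y / gaugeN g y r) = r := by
  set R := Stam.radius g y with hR
  have hr := Stam.rad hg y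
  -- the radius tends to the face value at the bottom
  have hlim : Tendsto R (𝓝[>] |y|) (𝓝 (|y| * g 1)) := by
    rcases eq_or_ne y 0 with rfl | hy
    · have e : R = fun w => w * g 0 := by funext w; simp [hR, Stam.radius]
      rw [e, abs_zero, zero_mul]
      exact ((continuous_id.mul continuous_const).tendsto' 0 0 (by simp)).mono_left
        nhdsWithin_le_nhds
    have h0 : 0 < |y| := abs_pos.2 hy
    have h1 : Tendsto (fun w => y / w) (𝓝[>] |y|) (𝓝[Icc (-1) 1] (y / |y|)) := by
      refine tendsto_nhdsWithin_iff.2 ⟨((tendsto_const_nhds).div tendsto_id h0.ne').mono_left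
        nhdsWithin_le_nhds, ?_⟩
      filter_upwards [self_mem_nhdsWithin] with w hw
      exact Ioo_subset_Icc_self (Stam.div_mem (show |y| < w from hw))
    have hm : y / |y| ∈ Icc (-1 : ℝ) 1 := by
      rcases abs_choice y with e | e <;> rw [e] <;> simp [hy]
    have hv : g (y / |y|) = g 1 := by
      rcases abs_choice y with e | e <;> rw [e] <;> simp [hy, hg.even]
    have h2 := (hg.cont _ hm).tendsto.comp h1
    rw [hv] at h2
    exact ((tendsto_id (x := 𝓝[>] |y|)).mono_right nhdsWithin_le_nhds).mul h2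
  obtain ⟨w, hw, hwr⟩ := (((tendsto_order.1 hlim).2 r h).and self_mem_nhdsWithin).exists
  obtain ⟨w', hw', hw'r⟩ := hr.top r
  have hwy : |y| < w := hwr
  have hle : w ≤ w' := by
    by_contra hlt
    exact absurd (hr.mono hw' hwy (not_le.1 hlt)) (not_lt.2 (by linarith))
  obtain ⟨v, hv, hvr⟩ := intermediate_value_Icc hle (hr.cont.mono fun z hz => hwy.trans_le hz.1)
    (show r ∈ Icc (R w) (R w') from ⟨hw.le, hw'r.le⟩)
  have hvy : |y| < v := hwy.trans_le hv.1
  have e : gaugeN g y r = v := by rw [gaugeN, ← hR, ← hvr]; exact Stam.level_rad hr hvy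
  rw [e]
  exact ⟨hvy, hvr⟩

omit hg in
theorem bestTest_sign {y : ℝ} (hy : y ≠ 0) : bestTest g (y / |y|) = y / |y| := by
  rcases lt_or_gt_of_ne hy with h | h
  · rw [abs_of_neg h, div_neg, div_self hy, bestTest, if_neg (by norm_num), if_pos le_rfl]
  · rw [abs_of_pos h, div_self hy, bestTest, if_pos le_rfl]

theorem hasDerivAt_gaugeN_face {y r : ℝ} (hy : y ≠ 0) (h : r < |y| * g 1) :
    HasDerivAt (fun z => gaugeN g z r) (bestTest g (y / gaugeN g y r)) y := by
  rw [gaugeN_face hg h, bestTest_sign hy]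
  have he : (fun z => gaugeN g z r) =ᶠ[𝓝 y] fun z => |z| := by
    filter_upwards [(continuous_abs.mul (continuous_const (y := g 1))).continuousAt.eventually_mem
      (Ioi_mem_nhds h)] with z hz
    exact gaugeN_face hg hz
  refine HasDerivAt.congr_of_eventuallyEq ?_ he
  rcases lt_or_gt_of_ne hy with h0 | h0
  · rw [abs_of_neg h0, div_neg, div_self hy]
    exact hasDerivAt_abs_neg h0
  · rw [abs_of_pos h0, div_self hy]
    exact hasDerivAt_abs_pos h0

theorem hasDerivAt_gaugeN {y r : ℝ} (h : |y| * g 1 < r)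
    (hd : HasDerivAt g (slopeR g (y / gaugeN g y r)) (y / gaugeN g y r)) :
    HasDerivAt (fun z => gaugeN g z r) (bestTest g (y / gaugeN g y r)) y := by
  obtain ⟨h1, h2⟩ := gaugeN_off_face hg h
  set R := gaugeN g y r with hR
  set q := slopeR g (y / R) with hq
  have hR0 : 0 < R := (abs_nonneg y).trans_lt h1
  have ht := Stam.div_mem h1
  have hD : 0 < icept g (y / R) := hg.icept_pos ht
  rw [bestTest_eq ht]
  -- the radius as a function of the gauge and the height
  have hdiv : HasFDerivAt (fun z : ℝ × ℝ => z.2 / z.1)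
      ((1 / R) • ContinuousLinearMap.snd ℝ ℝ ℝ -
        (y / R ^ 2) • ContinuousLinearMap.fst ℝ ℝ ℝ) (R, y) := by
    have hi := (hasDerivAt_inv hR0.ne').comp_hasFDerivAt (R, y)
      (hasFDerivAt_fst (𝕜 := ℝ) (p := (R, y)))
    refine ((hasFDerivAt_snd (𝕜 := ℝ) (p := (R, y))).mul hi).congr_fderiv ?_
    refine ContinuousLinearMap.ext fun z => ?_
    simp
    field_simp
    ring
  have hΦ : HasFDerivAt (fun z : ℝ × ℝ => z.1 * g (z.2 / z.1))
      (icept g (y / R) • ContinuousLinearMap.fst ℝ ℝ ℝ + q • ContinuousLinearMap.snd ℝ ℝ ℝ)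
      (R, y) := by
    refine ((hasFDerivAt_fst (𝕜 := ℝ) (p := (R, y))).mul
      (hd.comp_hasFDerivAt (R, y) hdiv)).congr_fderiv ?_
    refine ContinuousLinearMap.ext fun z => ?_
    simp [icept, ← hq]
    field_simp
    ring
  have hlip : ∀ z, |gaugeN g z r - R| ≤ |z - y| := fun z => abs_gaugeN_sub hg y z r
  have hcont : Tendsto (fun z => (gaugeN g z r, z)) (𝓝 y) (𝓝 (R, y)) := by
    refine Tendsto.prodMk_nhds ?_ tendsto_id
    refine tendsto_iff_norm_sub_tendsto_zero.2 (squeeze_zero (fun _ => norm_nonneg _) hlip ?_)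
    exact (continuous_abs.comp (continuous_id.sub continuous_const)).tendsto' y 0 (by simp)
  have hev : ∀ᶠ z in 𝓝 y, gaugeN g z r * g (z / gaugeN g z r) = r := by
    filter_upwards [(continuous_abs.mul (continuous_const (y := g 1))).continuousAt.eventually_mem
      (Iio_mem_nhds h)] with z hz
    exact (gaugeN_off_face hg hz).2
  have ho := (hasFDerivAt_iff_isLittleO_nhds_zero.1 hΦ)
  rw [hasDerivAt_iff_isLittleO]
  have h3 := hΦ.isLittleO.comp_tendsto hcont
  have h4 : (fun z => icept g (y / R) * (gaugeN g z r - R) + q * (z - y)) =o[𝓝 y]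
      fun z => z - y := by
    have e : (fun z => -(icept g (y / R) * (gaugeN g z r - R) + q * (z - y))) =ᶠ[𝓝 y]
        ((fun x' => x'.1 * g (x'.2 / x'.1) - R * g (y / R) -
          (icept g (y / R) • ContinuousLinearMap.fst ℝ ℝ ℝ +
            q • ContinuousLinearMap.snd ℝ ℝ ℝ) (x' - (R, y))) ∘ fun z => (gaugeN g z r, z)) := by
      filter_upwards [hev] with z hz
      simp [hz, h2]
    have hbig : ((fun x' => x' - (R, y)) ∘ fun z => (gaugeN g z r, z)) =O[𝓝 y] fun z => z - y := by
      refine Asymptotics.IsBigO.of_bound 1 (Eventually.of_forall fun z => ?_)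
      simp only [Function.comp_apply, Prod.mk_sub_mk, Prod.norm_mk, Real.norm_eq_abs, one_mul]
      exact max_le (hlip z) le_rfl
    exact ((e.trans_isLittleO h3).trans_isBigO hbig).neg_left.congr_left fun z => neg_neg _
  refine (h4.const_mul_left (icept g (y / R))⁻¹).congr_left fun z => ?_
  simp only [smul_eq_mul, neg_div]
  field_simp
  ring

/-- The points where a regular profile is not differentiable are countable. -/
theorem countable_kinks :
    {t : ℝ | t ∈ Ioo (-1 : ℝ) 1 ∧ ¬HasDerivAt g (slopeR g t) t}.Countable := by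
  refine (monotone_bestTest hg).countable_not_continuousAt.mono ?_
  rintro t ⟨ht, hn⟩ (hc : ContinuousAt (bestTest g) t)
  refine hn ?_
  have hqc : ContinuousAt (slopeR g) t := by
    have e : (fun x => -(bestTest g x * g x) / (1 - x * bestTest g x)) =ᶠ[𝓝 t] slopeR g := by
      filter_upwards [Ioo_mem_nhds ht.1 ht.2] with x hx
      have hD := hg.icept_pos hx
      rw [bestTest_eq hx]
      simp only [icept] at hD ⊢
      have hgx : g x ≠ 0 := fun h0 => by
        have := hg.le_icept hx
        have h2 := le_tangent hg.concave hx (show (0 : ℝ) ∈ Icc (-1 : ℝ) 1 by norm_num)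
        rcases le_total 0 x with hx0 | hx0
        · exact (hg.pos_of_lt ⟨hx0, hx.2⟩).ne' h0
        · exact (hg.pos_of_lt (t := -x) ⟨by linarith, by linarith [hx.1]⟩).ne' (hg.even x ▸ h0)
      have h1 : 1 - x * (-slopeR g x / (g x - x * slopeR g x)) =
          g x / (g x - x * slopeR g x) := by field_simp; ring
      rw [h1]
      field_simp
      exact mul_div_cancel_right₀ _ (by nlinarith [hD])
    refine ContinuousAt.congr ((((hc.mul (hg.cont.continuousAt (Icc_mem_nhds ht.1 ht.2))).neg).div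
      (continuousAt_const.sub (continuousAt_id.mul hc)) ?_)) e
    have hD := hg.icept_pos ht
    simp only [icept] at hD
    show (1 : ℝ) - t * bestTest g t ≠ 0
    rw [bestTest_eq ht, icept]
    have h1 : 1 - t * (-slopeR g t / (g t - t * slopeR g t)) =
        g t / (g t - t * slopeR g t) := by field_simp; ring
    rw [h1]
    refine div_ne_zero ?_ hD.ne'
    rcases le_total 0 t with ht0 | ht0
    · exact (hg.pos_of_lt ⟨ht0, ht.2⟩).ne'
    · rw [← hg.even t]
      exact (hg.pos_of_lt (t := -t) ⟨by linarith, by linarith [ht.1]⟩).ne'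
  rw [hasDerivAt_iff_tendsto_slope, ← Iio_union_Ioi, nhdsWithin_union, tendsto_sup]
  refine ⟨?_, by simpa [hasDerivWithinAt_iff_tendsto_slope' self_notMem_Ioi] using
    hasDerivWithinAt_slopeR hg.concave ht⟩
  refine tendsto_of_tendsto_of_tendsto_of_le_of_le' tendsto_const_nhds
    (hqc.tendsto.mono_left nhdsWithin_le_nhds) ?_ ?_
  · filter_upwards [Ioo_mem_nhdsLT ht.1] with x hx
    have h := le_tangent hg.concave ht (y := x) ⟨hx.1.le, by linarith [hx.2, ht.2]⟩
    rw [slope_def_field, le_div_iff_of_neg (by linarith [hx.2] : x - t < 0)]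
    linarith
  · filter_upwards [Ioo_mem_nhdsLT ht.1] with x hx
    have h := le_tangent hg.concave (⟨hx.1, by linarith [hx.2, ht.2]⟩ : x ∈ Ioo (-1 : ℝ) 1)
      (y := t) (Ioo_subset_Icc_self ht)
    rw [slope_def_field, div_le_iff_of_neg (by linarith [hx.2] : x - t < 0)]
    linarith

/-- At every height other than the centre the gauge is differentiable outside countably many
radii. -/
theorem ae_hasDerivAt_gaugeN {y : ℝ} (hy : y ≠ 0) :
    ∀ᵐ r ∂volume.restrict (Ioi (0 : ℝ)),
      HasDerivAt (fun z => gaugeN g z r) (bestTest g (y / gaugeN g y r)) y := by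
  set K := {t : ℝ | t ∈ Ioo (-1 : ℝ) 1 ∧ ¬HasDerivAt g (slopeR g t) t}
  have hc : ((fun t => y / t * g t) '' K ∪ {|y| * g 1}).Countable :=
    ((countable_kinks hg).image _).union (countable_singleton _)
  filter_upwards [ae_restrict_of_ae (hc.ae_notMem volume), ae_restrict_mem measurableSet_Ioi]
    with r hr hr0
  rw [mem_union, mem_singleton_iff, not_or] at hr
  rcases lt_or_gt_of_ne hr.2 with h | h
  · exact hasDerivAt_gaugeN_face hg hy h
  · obtain ⟨h1, h2⟩ := gaugeN_off_face hg h
    refine hasDerivAt_gaugeN hg h (by_contra fun hn => hr.1 ⟨y / gaugeN g y r, ⟨Stam.div_mem h1, hn⟩, ?_⟩)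
    show y / (y / gaugeN g y r) * g (y / gaugeN g y r) = r
    rw [div_div_cancel₀ hy, h2]

theorem abs_potY_le (y r : ℝ) : |potY g y r| ≤ gaugeN g y r := by
  rw [potY, abs_mul, abs_of_nonneg (gaugeN_nonneg hg y r)]
  exact mul_le_of_le_one_right (gaugeN_nonneg hg y r) (abs_bestTest_le hg _)

theorem abs_pot_sub (y y' r : ℝ) :
    |pot g y' r - pot g y r| ≤ |y' - y| * ((gaugeN g y r + gaugeN g y' r) / 2) := by
  rw [show pot g y' r - pot g y r =
    (gaugeN g y' r - gaugeN g y r) * ((gaugeN g y r + gaugeN g y' r) / 2) by rw [pot, pot]; ring, abs_mul,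
    abs_of_nonneg (show 0 ≤ (gaugeN g y r + gaugeN g y' r) / 2 by
      linarith [gaugeN_nonneg hg y r, gaugeN_nonneg hg y' r])]
  exact mul_le_mul_of_nonneg_right (abs_gaugeN_sub hg y y' r)
    (by linarith [gaugeN_nonneg hg y r, gaugeN_nonneg hg y' r])

theorem ae_hasDerivAt_pot {y : ℝ} (hy : y ≠ 0) :
    ∀ᵐ r ∂volume.restrict (Ioi (0 : ℝ)),
      HasDerivAt (fun z => pot g z r) (potY g y r) y := by
  filter_upwards [ae_hasDerivAt_gaugeN hg hy] with r hr
  refine ((hr.fun_pow 2).div_const 2).congr_deriv ?_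
  rw [potY]
  ring

end

end Vale.Agent.P237.Petty.Lift.Large
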