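import Vale.Agent.P237.Petty.Lift.Large.Section
import Vale.Agent.P237.Petty.Lift.Density

/-!
# P237: the moments of the section and the substitution `r = R g (y / R)`

The mass and the two quadratic moments of a section are slices of the profile, and the mean square
of the derivative of the potential is a slice of the Fisher integrand along the axis plus the face.
-/

namespace Vale.Agent.P237.Petty.Lift.Large

open MeasureTheory Set Filter Topology
open Stam (wt core_of_mem slice)

variable {g : ℝ → ℝ} {p : ℕ}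

section

variable (hg : Regular g)
include hg

theorem integrableOn_radius (j k : ℕ) (y : ℝ) :
    IntegrableOn (fun w => wt j w * Stam.radius g y w ^ k) (Ioi |y|) ∧
      ∫ w in Ioi |y|, wt j w * Stam.radius g y w ^ k = slice (j + k) (Stam.core fun t => g t ^ k) y := by
  obtain ⟨C, -, hC⟩ := Stam.core_bound hg
  have e : EqOn (fun w => wt (j + k) w * Stam.core (fun t => g t ^ k) (y / w))
      (fun w => wt j w * Stam.radius g y w ^ k) (Ioi |y|) := fun w hw => by
    simp only [core_of_mem (Stam.div_mem (show |y| < w from hw)), Stam.radius, wt, mul_pow, pow_add]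
    ring
  refine ⟨(Stam.slice_integrable (j + k) (Stam.measurable_core_pow hg k)
    (Stam.abs_core_pow_le hC k) y).congr_fun e measurableSet_Ioi, ?_⟩
  rw [slice]
  exact (setIntegral_congr_fun measurableSet_Ioi e).symm

omit hg in
theorem radW_eq_sec (p : ℕ) (y r : ℝ) :
    radW p g y r = r ^ p * Stam.sec |y| (Stam.radius g y) r := by
  rw [radW_def, pot, gaugeN, Stam.sec, neg_div]

/-- The mass and the radial moments of a section. -/
theorem section_values (p : ℕ) (y : ℝ) :
    secMass p g y = liftDens p g y / ((p : ℝ) + 1) ∧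
      secInt p g y (fun r => r ^ 2) =
        slice (p + 4) (Stam.core fun t => g t ^ (p + 3)) y / ((p : ℝ) + 3) ∧
      secInt p g y (fun r => gaugeN g y r ^ 2) =
        slice (p + 4) (Stam.core fun t => g t ^ (p + 1)) y / ((p : ℝ) + 1) -
          2 * (liftDens p g y / ((p : ℝ) + 1)) := by
  have hr := Stam.rad hg y
  obtain ⟨a1, e1⟩ := integrableOn_radius hg 1 (p + 1) y
  obtain ⟨a3, e3⟩ := integrableOn_radius hg 3 (p + 1) y
  obtain ⟨b1, f1⟩ := integrableOn_radius hg 1 (p + 3) y
  obtain ⟨b3, -⟩ := integrableOn_radius hg 3 (p + 3) y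
  obtain ⟨-, m1, -, m2⟩ := Stam.section_moments hr a1 a3
  obtain ⟨-, m3, -, -⟩ := Stam.section_moments hr (k := p + 2) b1 b3
  rw [e1, show 1 + (p + 1) = p + 2 by omega] at m1
  rw [e1, e3, show 1 + (p + 1) = p + 2 by omega, show 3 + (p + 1) = p + 4 by omega] at m2
  rw [f1, show 1 + (p + 3) = p + 4 by omega] at m3
  refine ⟨?_, ?_, ?_⟩
  · simp only [secMass, secInt, mul_one, radW_eq_sec]
    exact m1
  · simp only [secInt, radW_eq_sec]
    push_cast at m3
    rw [show (p : ℝ) + 3 = (p : ℝ) + 2 + 1 by ring, ← m3]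
    exact setIntegral_congr_fun measurableSet_Ioi fun r _ => by ring
  · simp only [secInt, radW_eq_sec]
    rw [setIntegral_congr_fun (g := fun r => 2 * (r ^ p *
      (Stam.level |y| (Stam.radius g y) r ^ 2 / 2) * Stam.sec |y| (Stam.radius g y) r))
      measurableSet_Ioi (fun r _ => by rw [gaugeN]; ring), integral_const_mul, m2, liftDens]
    ring

theorem secMass_eq (p : ℕ) (y : ℝ) : secMass p g y = liftDens p g y / ((p : ℝ) + 1) :=
  (section_values hg p y).1

/-- The substitution `r = R g (y / R)` above the face. -/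
theorem integral_subst {y : ℝ} (hy : 0 < y) (u : ℝ → ℝ) :
    (IntegrableOn u (Ioi (y * g 1)) ↔
        IntegrableOn (fun R => icept g (y / R) * u (R * g (y / R))) (Ioi y)) ∧
      ∫ r in Ioi (y * g 1), u r = ∫ R in Ioi y, icept g (y / R) * u (R * g (y / R)) := by
  set K := {t : ℝ | t ∈ Ioo (-1 : ℝ) 1 ∧ ¬HasDerivAt g (slopeR g t) t} with hK
  set B := (fun t => y / t) '' K with hB
  have hBc : B.Countable := (countable_kinks hg).image _
  set S := Ioi y \ B with hS
  have hSm : MeasurableSet S := measurableSet_Ioi.diff hBc.measurableSet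
  have hSae : S =ᵐ[volume] Ioi y := sdiff_null_ae_eq_self (hBc.measure_zero volume)
  have hr := Stam.rad hg y
  rw [abs_of_pos hy] at hr
  set f := Stam.radius g y with hf
  have hd : ∀ R ∈ S, HasDerivWithinAt f (icept g (y / R)) S R := by
    rintro R ⟨hR, hRB⟩
    have hR0 : 0 < R := hy.trans hR
    have ht : y / R ∈ Ioo (-1 : ℝ) 1 := Stam.div_mem (by rwa [abs_of_pos hy])
    have hdg : HasDerivAt g (slopeR g (y / R)) (y / R) := by
      by_contra hn
      exact hRB ⟨y / R, ⟨ht, hn⟩, by
        show y / (y / R) = R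
        rw [div_div_cancel₀ hy.ne']⟩
    have h1 : HasDerivAt (fun x : ℝ => y / x) (-(y / R) / R) R :=
      ((hasDerivAt_const R y).div (hasDerivAt_id' R) hR0.ne').congr_deriv (by field_simp; ring)
    refine (((hasDerivAt_id' R).mul (hdg.comp R h1)).congr_deriv ?_).hasDerivWithinAt
    simp only [icept, Function.comp_apply]
    field_simp
    ring
  have himg : f '' Ioi y = Ioi (y * g 1) := by
    refine Subset.antisymm ?_ fun r hr' => ?_
    · rintro _ ⟨R, hR, rfl⟩
      have hR0 : 0 < R := hy.trans hR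
      have ht : y / R ∈ Icc (0 : ℝ) 1 :=
        ⟨(div_pos hy hR0).le, ((div_lt_one hR0).2 hR).le⟩
      have h1 : g 1 ≤ g (y / R) := antitoneOn_of_concave_even hg.concave hg.even ht
        (right_mem_Icc.2 zero_le_one) ht.2
      have h2 : 0 < g (y / R) := hg.pos_of_lt ⟨ht.1, (div_lt_one hR0).2 hR⟩
      show y * g 1 < R * g (y / R)
      calc y * g 1 ≤ y * g (y / R) := mul_le_mul_of_nonneg_left h1 hy.le
        _ < R * g (y / R) := mul_lt_mul_of_pos_right hR h2
    · obtain ⟨h1, h2⟩ := gaugeN_off_face hg (y := y) (r := r) (by rwa [abs_of_pos hy])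
      rw [abs_of_pos hy] at h1
      exact ⟨gaugeN g y r, h1, h2⟩
  have hS' : f '' S =ᵐ[volume] Ioi (y * g 1) := by
    rw [← himg]
    refine ae_eq_set.2 ⟨?_, ?_⟩
    · rw [show f '' S \ f '' Ioi y = ∅ from
        sdiff_eq_empty.2 (image_mono sdiff_subset), measure_empty]
    · refine measure_mono_null ?_ ((hBc.image f).measure_zero volume)
      rintro _ ⟨⟨R, hR, rfl⟩, hn⟩
      exact ⟨R, by_contra fun hRB => hn ⟨R, ⟨hR, hRB⟩, rfl⟩, rfl⟩
  have hmono : MonotoneOn f S := hr.mono.monotoneOn.mono sdiff_subset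
  refine ⟨?_, ?_⟩
  · rw [← integrableOn_congr_set_ae hS', ← integrableOn_congr_set_ae hSae,
      integrableOn_image_iff_integrableOn_deriv_smul_of_monotoneOn hSm hd hmono]
    rfl
  · rw [← setIntegral_congr_set hS', ← setIntegral_congr_set hSae,
      integral_image_eq_integral_deriv_smul_of_monotoneOn hSm hd hmono]
    rfl

omit hg in
theorem gaugeN_even (he : ∀ t, g (-t) = g t) (y r : ℝ) : gaugeN g (-y) r = gaugeN g y r := by
  have e : Stam.radius g (-y) = Stam.radius g y := by
    funext w
    simp only [Stam.radius, neg_div, he]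
  rw [gaugeN, gaugeN, abs_neg, e]

/-- Away from the centre the derivative of the potential is odd. -/
theorem potY_neg {y : ℝ} (hy : y ≠ 0) :
    ∀ᵐ r ∂volume.restrict (Ioi (0 : ℝ)), potY g (-y) r = -potY g y r := by
  filter_upwards [ae_hasDerivAt_pot hg hy, ae_hasDerivAt_pot hg (neg_ne_zero.2 hy)] with r h1 h2
  have h3 := (h1.congr_of_eventuallyEq (Eventually.of_forall fun z => by
    show pot g (-z) r = pot g z r
    rw [pot, pot, gaugeN_even hg.even]) : HasDerivAt (fun z => pot g (-z) r) (potY g y r) y)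
  have h4 := h2.comp y (hasDerivAt_neg y)
  have := h3.unique h4
  linarith

/-- The mean square of the derivative of the potential, in the variable of the gauge. -/
theorem secInt_potY_sq (p : ℕ) {y : ℝ} (hy : 0 < y) :
    IntegrableOn (fun R => wt (p + 2) R * (g (y / R) ^ p * slopeR g (y / R) ^ 2 / icept g (y / R)))
        (Ioi y) ∧
      secInt p g y (fun r => potY g y r ^ 2) =
        (y * g 1) ^ (p + 1) / ((p : ℝ) + 1) * y ^ 2 * Real.exp (-(y ^ 2) / 2) +
          ∫ R in Ioi y, wt (p + 2) R *
            (g (y / R) ^ p * slopeR g (y / R) ^ 2 / icept g (y / R)) := by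
  set A := |y| + 1 + 1 / g 0
  set u := fun r => radW p g y r * potY g y r ^ 2 with hu
  have hint : IntegrableOn u (Ioi 0) :=
    integrableOn_sec hg p ((measurable_potY hg y).pow_const 2) (C := A ^ 2) (j := 2)
      (fun r hr => by
        rw [abs_pow, ← mul_pow]
        exact pow_le_pow_left₀ (abs_nonneg _) (abs_potY_le' hg (y := y) (by simp) hr.le) 2) y
  have hG : 0 ≤ y * g 1 := mul_nonneg hy.le (hg.nonneg 1 (by norm_num))
  have hface : ∫ r in Ioc 0 (y * g 1), u r =
      (y * g 1) ^ (p + 1) / ((p : ℝ) + 1) * y ^ 2 * Real.exp (-(y ^ 2) / 2) := by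
    rw [setIntegral_congr_ae (g := fun r => r ^ p * (y ^ 2 * Real.exp (-(y ^ 2) / 2)))
      measurableSet_Ioc ?_, integral_mul_const, ← intervalIntegral.integral_of_le hG, integral_pow]
    · simp only [zero_pow (Nat.succ_ne_zero p), sub_zero]
      ring
    · filter_upwards [Measure.ae_ne volume (y * g 1)] with r hne hr
      have h : r < |y| * g 1 := by rw [abs_of_pos hy]; exact lt_of_le_of_ne hr.2 hne
      simp only [hu, radW_def, pot, potY, gaugeN_face hg h, bestTest_sign hy.ne']
      rw [abs_of_pos hy, div_self hy.ne', neg_div]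
      ring
  have hb : EqOn (fun R => icept g (y / R) * u (R * g (y / R)))
      (fun R => wt (p + 2) R * (g (y / R) ^ p * slopeR g (y / R) ^ 2 / icept g (y / R)))
      (Ioi y) := fun R hR => by
    have hR' : |y| < R := by rw [abs_of_pos hy]; exact hR
    have hN : gaugeN g y (R * g (y / R)) = R := Stam.level_rad (Stam.rad hg y) hR'
    have hD := (hg.icept_pos (Stam.div_mem hR')).ne'
    simp only [hu, radW_def, pot, potY, hN, bestTest_eq (Stam.div_mem hR'), wt, neg_div]
    field_simp
    ring
  have hsub := integral_subst hg hy u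
  have hup : IntegrableOn u (Ioi (y * g 1)) := hint.mono_set (Ioi_subset_Ioi hG)
  refine ⟨(hsub.1.1 hup).congr_fun hb measurableSet_Ioi, ?_⟩
  rw [secInt, ← Ioc_union_Ioi_eq_Ioi hG, setIntegral_union Ioc_disjoint_Ioi_same measurableSet_Ioi
    (hint.mono_set Ioc_subset_Ioi_self) hup, hface, hsub.2,
    setIntegral_congr_fun measurableSet_Ioi hb]

end

end Vale.Agent.P237.Petty.Lift.Large
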