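import Mathlib

/-!
# P237: weighted variances on the half line and the radial Poincaré inequality

For a weight whose logarithmic derivative leaves a point `r0` at least as fast as
`a (1 / r - 1 / r0)`, the variance of `f` is at most `1 / a` times the mean of `r ^ 2 f' ^ 2`. Only
right derivatives are used. The weight `r ^ p exp (-V)` is of this kind as soon as the right
derivative of `V` is monotone.
-/

namespace Vale.Agent.P237.Petty.Lift.Large

open MeasureTheory Set Filter Topology intervalIntegral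

/-- The mean of `f` for the weight `q` on the half line. -/
noncomputable def wmean (q f : ℝ → ℝ) : ℝ :=
  (∫ r in Ioi (0 : ℝ), f r * q r) / ∫ r in Ioi (0 : ℝ), q r

/-- The variance of `f` for the weight `q`. -/
noncomputable def wvar (q f : ℝ → ℝ) : ℝ := wmean q fun r => (f r - wmean q f) ^ 2

/-- The covariance of two functions for the weight `q`. -/
noncomputable def wcov (q f k : ℝ → ℝ) : ℝ :=
  wmean q fun r => (f r - wmean q f) * (k r - wmean q k)

section Mean

variable {q f k : ℝ → ℝ}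

theorem wmean_nonneg (hq : ∀ r, 0 < r → 0 ≤ q r) (hf : ∀ r, 0 < r → 0 ≤ f r) : 0 ≤ wmean q f :=
  div_nonneg (setIntegral_nonneg measurableSet_Ioi fun r hr => mul_nonneg (hf r hr) (hq r hr))
    (setIntegral_nonneg measurableSet_Ioi hq)

theorem wmean_mono (hq : ∀ r, 0 < r → 0 ≤ q r)
    (hf : IntegrableOn (fun r => f r * q r) (Ioi 0))
    (hk : IntegrableOn (fun r => k r * q r) (Ioi 0)) (hle : ∀ r, 0 < r → f r ≤ k r) :
    wmean q f ≤ wmean q k :=
  div_le_div_of_nonneg_right (setIntegral_mono_on hf hk measurableSet_Ioi fun r hr =>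
    mul_le_mul_of_nonneg_right (hle r hr) (hq r hr)) (setIntegral_nonneg measurableSet_Ioi hq)

theorem wvar_nonneg (hq : ∀ r, 0 < r → 0 ≤ q r) : 0 ≤ wvar q f :=
  wmean_nonneg hq fun _ _ => sq_nonneg _

theorem sq_shift_integrable (hqi : IntegrableOn q (Ioi 0))
    (h1 : IntegrableOn (fun r => f r * q r) (Ioi 0))
    (h2 : IntegrableOn (fun r => f r ^ 2 * q r) (Ioi 0)) (c : ℝ) :
    IntegrableOn (fun r => (f r - c) ^ 2 * q r) (Ioi 0) :=
  IntegrableOn.congr_fun (((h2.sub (h1.const_mul (2 * c))).add (hqi.const_mul (c ^ 2))))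
    (fun r _ => by simp only [Pi.add_apply, Pi.sub_apply]; ring) measurableSet_Ioi

theorem integral_three {A B C : ℝ → ℝ} (hA : IntegrableOn A (Ioi 0)) (hB : IntegrableOn B (Ioi 0))
    (hC : IntegrableOn C (Ioi 0)) (x y : ℝ) :
    ∫ r in Ioi (0 : ℝ), (A r + x * B r + y * C r) = (∫ r in Ioi (0 : ℝ), A r) +
      x * (∫ r in Ioi (0 : ℝ), B r) + y * ∫ r in Ioi (0 : ℝ), C r := by
  have hBx : IntegrableOn (fun r => x * B r) (Ioi 0) := hB.const_mul x
  have hCy : IntegrableOn (fun r => y * C r) (Ioi 0) := hC.const_mul y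
  have hAB : IntegrableOn (fun r => A r + x * B r) (Ioi 0) := hA.add hBx
  rw [MeasureTheory.integral_add hAB hCy, MeasureTheory.integral_add hA hBx,
    MeasureTheory.integral_const_mul, MeasureTheory.integral_const_mul]

theorem wmean_sq (hqi : IntegrableOn q (Ioi 0)) (hZ : 0 < ∫ r in Ioi (0 : ℝ), q r)
    (h1 : IntegrableOn (fun r => f r * q r) (Ioi 0))
    (h2 : IntegrableOn (fun r => f r ^ 2 * q r) (Ioi 0)) :
    wmean q (fun r => f r ^ 2) = wvar q f + wmean q f ^ 2 := by
  set μ := wmean q f with hμ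
  have hμe : ∫ r in Ioi (0 : ℝ), f r * q r = μ * ∫ r in Ioi (0 : ℝ), q r := by
    rw [hμ, wmean, div_mul_cancel₀ _ hZ.ne']
  have e : ∫ r in Ioi (0 : ℝ), (f r - μ) ^ 2 * q r =
      (∫ r in Ioi (0 : ℝ), f r ^ 2 * q r) - μ ^ 2 * ∫ r in Ioi (0 : ℝ), q r := by
    rw [setIntegral_congr_fun measurableSet_Ioi
      (g := fun r => f r ^ 2 * q r + -(2 * μ) * (f r * q r) + μ ^ 2 * q r) fun r _ => by ring,
      integral_three h2 h1 hqi, hμe]
    ring
  rw [wvar, ← hμ, wmean, wmean, e]
  field_simp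
  ring

/-- The variance is the smallest mean square distance to a constant. -/
theorem wvar_le (hqi : IntegrableOn q (Ioi 0))
    (hZ : 0 < ∫ r in Ioi (0 : ℝ), q r) (h1 : IntegrableOn (fun r => f r * q r) (Ioi 0))
    (h2 : IntegrableOn (fun r => f r ^ 2 * q r) (Ioi 0)) (c : ℝ) :
    wvar q f ≤ wmean q fun r => (f r - c) ^ 2 := by
  have hμ : ∫ r in Ioi (0 : ℝ), f r * q r = wmean q f * ∫ r in Ioi (0 : ℝ), q r := by
    rw [wmean, div_mul_cancel₀ _ hZ.ne']
  have e : (wmean q fun r => (f r - c) ^ 2) =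
      (wmean q fun r => f r ^ 2) - 2 * c * wmean q f + c ^ 2 := by
    rw [wmean, setIntegral_congr_fun measurableSet_Ioi
      (g := fun r => f r ^ 2 * q r + -(2 * c) * (f r * q r) + c ^ 2 * q r) fun r _ => by ring,
      integral_three h2 h1 hqi, hμ, wmean, wmean]
    field_simp
    ring
  rw [e, wmean_sq hqi hZ h1 h2]
  nlinarith [sq_nonneg (wmean q f - c)]

/-- The variance of a difference. -/
theorem wvar_sub_le (hq : ∀ r, 0 < r → 0 ≤ q r) (hqi : IntegrableOn q (Ioi 0))
    (hZ : 0 < ∫ r in Ioi (0 : ℝ), q r) (f1 : IntegrableOn (fun r => f r * q r) (Ioi 0))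
    (f2 : IntegrableOn (fun r => f r ^ 2 * q r) (Ioi 0))
    (k1 : IntegrableOn (fun r => k r * q r) (Ioi 0))
    (k2 : IntegrableOn (fun r => k r ^ 2 * q r) (Ioi 0))
    (d1 : IntegrableOn (fun r => (f r - k r) * q r) (Ioi 0))
    (d2 : IntegrableOn (fun r => (f r - k r) ^ 2 * q r) (Ioi 0)) :
    wvar q (fun r => f r - k r) ≤ 2 * wvar q f + 2 * wvar q k := by
  have a := sq_shift_integrable hqi f1 f2 (wmean q f)
  have b := sq_shift_integrable hqi k1 k2 (wmean q k)
  refine (wvar_le hqi hZ d1 d2 (wmean q f - wmean q k)).trans ?_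
  simp only [wvar, wmean] at a b ⊢
  rw [mul_div_assoc', mul_div_assoc', ← add_div]
  refine div_le_div_of_nonneg_right ?_ hZ.le
  rw [← MeasureTheory.integral_const_mul, ← MeasureTheory.integral_const_mul,
    ← MeasureTheory.integral_add (a.const_mul 2) (b.const_mul 2)]
  refine setIntegral_mono_on (sq_shift_integrable hqi d1 d2 _) ((a.const_mul 2).add (b.const_mul 2))
    measurableSet_Ioi fun r hr => ?_
  have h := mul_nonneg (sq_nonneg ((f r - wmean q f) + (k r - wmean q k))) (hq r hr)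
  simp only [wmean] at h ⊢
  nlinarith

/-- The covariance is at most the geometric mean of the variances. -/
theorem wcov_sq_le (hq : ∀ r, 0 < r → 0 ≤ q r) (hqi : IntegrableOn q (Ioi 0))
    (hZ : 0 < ∫ r in Ioi (0 : ℝ), q r) (f1 : IntegrableOn (fun r => f r * q r) (Ioi 0))
    (f2 : IntegrableOn (fun r => f r ^ 2 * q r) (Ioi 0))
    (k1 : IntegrableOn (fun r => k r * q r) (Ioi 0))
    (k2 : IntegrableOn (fun r => k r ^ 2 * q r) (Ioi 0))
    (fk : IntegrableOn (fun r => f r * k r * q r) (Ioi 0)) :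
    wcov q f k ^ 2 ≤ wvar q f * wvar q k := by
  set A := wmean q f
  set B := wmean q k
  have a := sq_shift_integrable hqi f1 f2 A
  have b := sq_shift_integrable hqi k1 k2 B
  have c : IntegrableOn (fun r => (f r - A) * (k r - B) * q r) (Ioi 0) :=
    IntegrableOn.congr_fun (((fk.sub (f1.const_mul B)).sub (k1.const_mul A)).add
      (hqi.const_mul (A * B))) (fun r _ => by simp only [Pi.add_apply, Pi.sub_apply]; ring)
      measurableSet_Ioi
  have key : ∀ x : ℝ, 0 ≤ wvar q k * (x * x) + 2 * wcov q f k * x + wvar q f := fun x => by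
    have h : 0 ≤ ∫ r in Ioi (0 : ℝ), ((f r - A) + x * (k r - B)) ^ 2 * q r :=
      setIntegral_nonneg measurableSet_Ioi fun r hr => mul_nonneg (sq_nonneg _) (hq r hr)
    rw [setIntegral_congr_fun measurableSet_Ioi (g := fun r => ((f r - A) ^ 2 * q r +
      2 * x * ((f r - A) * (k r - B) * q r)) + x * x * ((k r - B) ^ 2 * q r)) fun r _ => by ring,
      integral_three a c b] at h
    refine le_trans (div_nonneg h hZ.le) (le_of_eq ?_)
    simp only [wvar, wcov, wmean, A, B]
    ring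
  have h := discrim_le_zero key
  rw [discrim] at h
  nlinarith

end Mean

section Poincare

variable {a r0 : ℝ} {q q' f f' : ℝ → ℝ}

/-- To the right of the centre. -/
theorem poincare_right (hr0 : 0 < r0) {R : ℝ} (hR : r0 ≤ R)
    (hqc : ContinuousOn q (Icc r0 R)) (hq0 : ∀ r ∈ Icc r0 R, 0 ≤ q r)
    (hqd : ∀ r ∈ Ioo r0 R, HasDerivWithinAt q (q' r) (Ioi r) r)
    (hfc : ContinuousOn f (Icc r0 R))
    (hfd : ∀ r ∈ Ioo r0 R, HasDerivWithinAt f (f' r) (Ioi r) r)
    (hsign : ∀ r ∈ Ioo r0 R, q' r ≤ -(a * (1 / r0 - 1 / r) * q r))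
    (hint : IntervalIntegrable (fun r => r ^ 2 * f' r ^ 2 * q r) volume r0 R) :
    a * ∫ r in r0..R, (f r - f r0) ^ 2 * q r ≤ ∫ r in r0..R, r ^ 2 * f' r ^ 2 * q r := by
  set F := fun r => (f r - f r0) ^ 2 * q r with hF
  have hFc : ContinuousOn F (Icc r0 R) := ((hfc.sub continuousOn_const).pow 2).mul hqc
  have hzc : ContinuousOn (fun r : ℝ => 1 / r0 - 1 / r) (Icc r0 R) :=
    continuousOn_const.sub (continuousOn_const.div continuousOn_id fun r hr =>
      (hr0.trans_le hr.1).ne')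
  have hz0 : ∀ r ∈ Icc r0 R, 0 ≤ 1 / r0 - 1 / r := fun r hr =>
    sub_nonneg.2 (one_div_le_one_div_of_le hr0 hr.1)
  set φ := fun (e r : ℝ) => F r * ((1 / r0 - 1 / r) / (1 / r0 - 1 / r + e)) with hφ
  have hstep : ∀ e : ℝ, 0 < e →
      a * ∫ r in r0..R, φ e r ≤ ∫ r in r0..R, r ^ 2 * f' r ^ 2 * q r := by
    intro e he
    have hS : ∀ r ∈ Icc r0 R, 0 < 1 / r0 - 1 / r + e := fun r hr => by linarith [hz0 r hr]
    have hφc : ContinuousOn (φ e) (Icc r0 R) :=
      hFc.mul (hzc.div (hzc.add continuousOn_const) fun r hr => (hS r hr).ne')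
    have hφi := hφc.intervalIntegrable_of_Icc hR (μ := volume)
    set ψ := fun r => (f r - f r0) ^ 2 / (1 / r0 - 1 / r + e) * q r with hψ
    have hψc : ContinuousOn ψ (Icc r0 R) :=
      (((hfc.sub continuousOn_const).pow 2).div (hzc.add continuousOn_const)
        fun r hr => (hS r hr).ne').mul hqc
    have hψd : ∀ r ∈ Ioo r0 R, HasDerivWithinAt ψ
        ((2 * (f r - f r0) * f' r / (1 / r0 - 1 / r + e) -
          (f r - f r0) ^ 2 / (r ^ 2 * (1 / r0 - 1 / r + e) ^ 2)) * q r +
          (f r - f r0) ^ 2 / (1 / r0 - 1 / r + e) * q' r) (Ioi r) r := fun r hr => by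
      have hS' := (hS r (Ioo_subset_Icc_self hr)).ne'
      have hr' : r ≠ 0 := (hr0.trans hr.1).ne'
      have hz : HasDerivWithinAt (fun x : ℝ => 1 / r0 - 1 / x + e) ((r ^ 2)⁻¹) (Ioi r) r := by
        simp only [one_div]
        exact ((((hasDerivAt_inv hr').const_sub r0⁻¹).add_const e).congr_deriv
          (by ring)).hasDerivWithinAt
      refine (((((hfd r hr).sub_const (f r0)).fun_pow 2).div hz hS').fun_mul
        (hqd r hr)).congr_deriv ?_
      simp only [Nat.add_one_sub_one, pow_one, Pi.div_apply]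
      push_cast
      field_simp
    have hle : ∀ r ∈ Ioo r0 R, (2 * (f r - f r0) * f' r / (1 / r0 - 1 / r + e) -
          (f r - f r0) ^ 2 / (r ^ 2 * (1 / r0 - 1 / r + e) ^ 2)) * q r +
          (f r - f r0) ^ 2 / (1 / r0 - 1 / r + e) * q' r ≤
        r ^ 2 * f' r ^ 2 * q r - a * φ e r := fun r hr => by
      have hI := Ioo_subset_Icc_self hr
      have hr' : r ≠ 0 := (hr0.trans hr.1).ne'
      have hS0 := hS r hI
      have hsg := mul_le_mul_of_nonneg_left (hsign r hr)
        (div_nonneg (sq_nonneg (f r - f r0)) hS0.le)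
      have e1 : r ^ 2 * f' r ^ 2 - (2 * (f r - f r0) * f' r / (1 / r0 - 1 / r + e) -
          (f r - f r0) ^ 2 / (r ^ 2 * (1 / r0 - 1 / r + e) ^ 2)) =
          (r * f' r - (f r - f r0) / (r * (1 / r0 - 1 / r + e))) ^ 2 := by
        generalize hD : 1 / r0 - 1 / r + e = D at hS0
        field_simp
        ring
      have hsq := mul_nonneg (e1.symm ▸ sq_nonneg _ : 0 ≤ r ^ 2 * f' r ^ 2 -
          (2 * (f r - f r0) * f' r / (1 / r0 - 1 / r + e) -
            (f r - f r0) ^ 2 / (r ^ 2 * (1 / r0 - 1 / r + e) ^ 2))) (hq0 r hI)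
      have e2 : a * φ e r = (f r - f r0) ^ 2 / (1 / r0 - 1 / r + e) *
          (a * (1 / r0 - 1 / r) * q r) := by
        simp only [hφ, hF]
        ring
      rw [e2]
      nlinarith
    have hkey := intervalIntegral.sub_le_integral_of_hasDeriv_right_of_le hR hψc hψd
      ((intervalIntegrable_iff_integrableOn_Icc_of_le hR).1 (hint.sub (hφi.const_mul a))) hle
    rw [intervalIntegral.integral_sub hint (hφi.const_mul a),
      intervalIntegral.integral_const_mul] at hkey
    have h0 : ψ r0 = 0 := by simp [hψ]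
    have hψR : 0 ≤ ψ R := mul_nonneg (div_nonneg (sq_nonneg _) (hS R (right_mem_Icc.2 hR)).le)
      (hq0 R (right_mem_Icc.2 hR))
    linarith
  have hlim : Tendsto (fun n : ℕ => a * ∫ r in r0..R, φ (1 / ((n : ℝ) + 1)) r) atTop
      (𝓝 (a * ∫ r in r0..R, F r)) := by
    refine (intervalIntegral.tendsto_integral_filter_of_dominated_convergence F ?_ ?_
      (hFc.intervalIntegrable_of_Icc hR) ?_).const_mul a
    · refine Eventually.of_forall fun n => ?_
      rw [uIoc_of_le hR]
      exact ((hFc.mul (hzc.div (hzc.add continuousOn_const) fun r hr =>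
        (show (0 : ℝ) < 1 / r0 - 1 / r + 1 / ((n : ℝ) + 1) from add_pos_of_nonneg_of_pos (hz0 r hr)
          (by positivity)).ne')).mono Ioc_subset_Icc_self).aestronglyMeasurable measurableSet_Ioc
    · refine Eventually.of_forall fun n => Eventually.of_forall fun r hr => ?_
      rw [uIoc_of_le hR] at hr
      have hI := Ioc_subset_Icc_self hr
      have hF0 : 0 ≤ F r := mul_nonneg (sq_nonneg _) (hq0 r hI)
      have hn : (0 : ℝ) < 1 / ((n : ℝ) + 1) := by positivity
      rw [Real.norm_eq_abs, abs_of_nonneg (mul_nonneg hF0 (div_nonneg (hz0 r hI)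
        (by linarith [hz0 r hI])))]
      exact mul_le_of_le_one_right hF0 (div_le_one_of_le₀ (by linarith) (by linarith [hz0 r hI]))
    · refine Eventually.of_forall fun r hr => ?_
      rw [uIoc_of_le hR] at hr
      have hz : 1 / r0 - 1 / r ≠ 0 := (sub_pos.2 (one_div_lt_one_div_of_lt hr0 hr.1)).ne'
      have h := (tendsto_one_div_add_atTop_nhds_zero_nat (𝕜 := ℝ)).const_add (1 / r0 - 1 / r)
      rw [add_zero] at h
      have h2 := ((tendsto_const_nhds (x := 1 / r0 - 1 / r)).div h hz).const_mul (F r)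
      rw [div_self hz, mul_one] at h2
      exact h2
  exact le_of_tendsto hlim (Eventually.of_forall fun n => hstep _ (by positivity))

/-- To the left of the centre. -/
theorem poincare_left {s : ℝ} (hs : 0 < s) (hsr : s ≤ r0)
    (hqc : ContinuousOn q (Icc s r0)) (hq0 : ∀ r ∈ Icc s r0, 0 ≤ q r)
    (hqd : ∀ r ∈ Ioo s r0, HasDerivWithinAt q (q' r) (Ioi r) r)
    (hfc : ContinuousOn f (Icc s r0))
    (hfd : ∀ r ∈ Ioo s r0, HasDerivWithinAt f (f' r) (Ioi r) r)
    (hsign : ∀ r ∈ Ioo s r0, a * (1 / r - 1 / r0) * q r ≤ q' r)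
    (hint : IntervalIntegrable (fun r => r ^ 2 * f' r ^ 2 * q r) volume s r0) :
    a * ∫ r in s..r0, (f r - f r0) ^ 2 * q r ≤ ∫ r in s..r0, r ^ 2 * f' r ^ 2 * q r := by
  set F := fun r => (f r - f r0) ^ 2 * q r with hF
  have hFc : ContinuousOn F (Icc s r0) := ((hfc.sub continuousOn_const).pow 2).mul hqc
  have hzc : ContinuousOn (fun r : ℝ => 1 / r - 1 / r0) (Icc s r0) :=
    (continuousOn_const.div continuousOn_id fun r hr => (hs.trans_le hr.1).ne').sub
      continuousOn_const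
  have hz0 : ∀ r ∈ Icc s r0, 0 ≤ 1 / r - 1 / r0 := fun r hr =>
    sub_nonneg.2 (one_div_le_one_div_of_le (hs.trans_le hr.1) hr.2)
  set φ := fun (e r : ℝ) => F r * ((1 / r - 1 / r0) / (1 / r - 1 / r0 + e)) with hφ
  have hstep : ∀ e : ℝ, 0 < e →
      a * ∫ r in s..r0, φ e r ≤ ∫ r in s..r0, r ^ 2 * f' r ^ 2 * q r := by
    intro e he
    have hS : ∀ r ∈ Icc s r0, 0 < 1 / r - 1 / r0 + e := fun r hr => by linarith [hz0 r hr]
    have hφc : ContinuousOn (φ e) (Icc s r0) :=
      hFc.mul (hzc.div (hzc.add continuousOn_const) fun r hr => (hS r hr).ne')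
    have hφi := hφc.intervalIntegrable_of_Icc hsr (μ := volume)
    set ψ := fun r => -((f r - f r0) ^ 2 / (1 / r - 1 / r0 + e) * q r) with hψ
    have hψc : ContinuousOn ψ (Icc s r0) :=
      ((((hfc.sub continuousOn_const).pow 2).div (hzc.add continuousOn_const)
        fun r hr => (hS r hr).ne').mul hqc).neg
    have hψd : ∀ r ∈ Ioo s r0, HasDerivWithinAt ψ
        (-((2 * (f r - f r0) * f' r / (1 / r - 1 / r0 + e) +
          (f r - f r0) ^ 2 / (r ^ 2 * (1 / r - 1 / r0 + e) ^ 2)) * q r +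
          (f r - f r0) ^ 2 / (1 / r - 1 / r0 + e) * q' r)) (Ioi r) r := fun r hr => by
      have hS' := (hS r (Ioo_subset_Icc_self hr)).ne'
      have hr' : r ≠ 0 := (hs.trans hr.1).ne'
      have hz : HasDerivWithinAt (fun x : ℝ => 1 / x - 1 / r0 + e) (-(r ^ 2)⁻¹) (Ioi r) r := by
        simp only [one_div]
        exact (((hasDerivAt_inv hr').sub_const r0⁻¹).add_const e).hasDerivWithinAt
      refine ((((((hfd r hr).sub_const (f r0)).fun_pow 2).div hz hS').fun_mul
        (hqd r hr)).neg).congr_deriv ?_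
      simp only [Nat.add_one_sub_one, pow_one, Pi.div_apply]
      push_cast
      field_simp
      ring
    have hle : ∀ r ∈ Ioo s r0, -((2 * (f r - f r0) * f' r / (1 / r - 1 / r0 + e) +
          (f r - f r0) ^ 2 / (r ^ 2 * (1 / r - 1 / r0 + e) ^ 2)) * q r +
          (f r - f r0) ^ 2 / (1 / r - 1 / r0 + e) * q' r) ≤
        r ^ 2 * f' r ^ 2 * q r - a * φ e r := fun r hr => by
      have hI := Ioo_subset_Icc_self hr
      have hr' : r ≠ 0 := (hs.trans hr.1).ne'
      have hS0 := hS r hI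
      have hsg := mul_le_mul_of_nonneg_left (hsign r hr)
        (div_nonneg (sq_nonneg (f r - f r0)) hS0.le)
      have e1 : r ^ 2 * f' r ^ 2 + (2 * (f r - f r0) * f' r / (1 / r - 1 / r0 + e) +
          (f r - f r0) ^ 2 / (r ^ 2 * (1 / r - 1 / r0 + e) ^ 2)) =
          (r * f' r + (f r - f r0) / (r * (1 / r - 1 / r0 + e))) ^ 2 := by
        generalize hD : 1 / r - 1 / r0 + e = D at hS0
        field_simp
        ring
      have hsq := mul_nonneg (e1.symm ▸ sq_nonneg _ : 0 ≤ r ^ 2 * f' r ^ 2 +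
          (2 * (f r - f r0) * f' r / (1 / r - 1 / r0 + e) +
            (f r - f r0) ^ 2 / (r ^ 2 * (1 / r - 1 / r0 + e) ^ 2))) (hq0 r hI)
      have e2 : a * φ e r = (f r - f r0) ^ 2 / (1 / r - 1 / r0 + e) *
          (a * (1 / r - 1 / r0) * q r) := by
        simp only [hφ, hF]
        ring
      rw [e2]
      nlinarith
    have hkey := intervalIntegral.sub_le_integral_of_hasDeriv_right_of_le hsr hψc hψd
      ((intervalIntegrable_iff_integrableOn_Icc_of_le hsr).1 (hint.sub (hφi.const_mul a))) hle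
    rw [intervalIntegral.integral_sub hint (hφi.const_mul a),
      intervalIntegral.integral_const_mul] at hkey
    have h0 : ψ r0 = 0 := by simp [hψ]
    have hψs : ψ s ≤ 0 := neg_nonpos.2 (mul_nonneg (div_nonneg (sq_nonneg _)
      (hS s (left_mem_Icc.2 hsr)).le) (hq0 s (left_mem_Icc.2 hsr)))
    linarith
  have hlim : Tendsto (fun n : ℕ => a * ∫ r in s..r0, φ (1 / ((n : ℝ) + 1)) r) atTop
      (𝓝 (a * ∫ r in s..r0, F r)) := by
    refine (intervalIntegral.tendsto_integral_filter_of_dominated_convergence F ?_ ?_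
      (hFc.intervalIntegrable_of_Icc hsr) ?_).const_mul a
    · refine Eventually.of_forall fun n => ?_
      rw [uIoc_of_le hsr]
      exact ((hFc.mul (hzc.div (hzc.add continuousOn_const) fun r hr =>
        (show (0 : ℝ) < 1 / r - 1 / r0 + 1 / ((n : ℝ) + 1) from add_pos_of_nonneg_of_pos (hz0 r hr)
          (by positivity)).ne')).mono Ioc_subset_Icc_self).aestronglyMeasurable measurableSet_Ioc
    · refine Eventually.of_forall fun n => Eventually.of_forall fun r hr => ?_
      rw [uIoc_of_le hsr] at hr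
      have hI := Ioc_subset_Icc_self hr
      have hF0 : 0 ≤ F r := mul_nonneg (sq_nonneg _) (hq0 r hI)
      have hn : (0 : ℝ) < 1 / ((n : ℝ) + 1) := by positivity
      rw [Real.norm_eq_abs, abs_of_nonneg (mul_nonneg hF0 (div_nonneg (hz0 r hI)
        (by linarith [hz0 r hI])))]
      exact mul_le_of_le_one_right hF0 (div_le_one_of_le₀ (by linarith) (by linarith [hz0 r hI]))
    · filter_upwards [Measure.ae_ne volume r0] with r hne hr
      rw [uIoc_of_le hsr] at hr
      have hz : 1 / r - 1 / r0 ≠ 0 :=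
        (sub_pos.2 (one_div_lt_one_div_of_lt (hs.trans hr.1) (lt_of_le_of_ne hr.2 hne))).ne'
      have h := (tendsto_one_div_add_atTop_nhds_zero_nat (𝕜 := ℝ)).const_add (1 / r - 1 / r0)
      rw [add_zero] at h
      have h2 := ((tendsto_const_nhds (x := 1 / r - 1 / r0)).div h hz).const_mul (F r)
      rw [div_self hz, mul_one] at h2
      exact h2
  exact le_of_tendsto hlim (Eventually.of_forall fun n => hstep _ (by positivity))

/-- The radial Poincaré inequality about the centre. -/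
theorem poincare_Ioi (ha : 0 < a) (hr0 : 0 < r0) (hqc : ContinuousOn q (Ioi 0))
    (hq0 : ∀ r, 0 < r → 0 ≤ q r) (hqd : ∀ r, 0 < r → HasDerivWithinAt q (q' r) (Ioi r) r)
    (hfc : ContinuousOn f (Ioi 0)) (hfd : ∀ r, 0 < r → HasDerivWithinAt f (f' r) (Ioi r) r)
    (hlo : ∀ r, 0 < r → r < r0 → a * (1 / r - 1 / r0) * q r ≤ q' r)
    (hhi : ∀ r, r0 < r → q' r ≤ -(a * (1 / r0 - 1 / r) * q r))
    (hint : IntegrableOn (fun r => r ^ 2 * f' r ^ 2 * q r) (Ioi 0)) :
    IntegrableOn (fun r => (f r - f r0) ^ 2 * q r) (Ioi 0) ∧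
      a * ∫ r in Ioi (0 : ℝ), (f r - f r0) ^ 2 * q r ≤
        ∫ r in Ioi (0 : ℝ), r ^ 2 * f' r ^ 2 * q r := by
  set F := fun r => (f r - f r0) ^ 2 * q r with hF
  set T := fun r => r ^ 2 * f' r ^ 2 * q r with hT
  have hFc : ContinuousOn F (Ioi 0) := ((hfc.sub continuousOn_const).pow 2).mul hqc
  have hF0 : ∀ r, 0 < r → 0 ≤ F r := fun r hr => mul_nonneg (sq_nonneg _) (hq0 r hr)
  have hT0 : ∀ r, 0 < r → 0 ≤ T r := fun r hr => mul_nonneg (by positivity) (hq0 r hr)
  have hTi : ∀ {u v : ℝ}, 0 ≤ u → u ≤ v → IntervalIntegrable T volume u v := fun hu huv =>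
    (intervalIntegrable_iff_integrableOn_Ioc_of_le huv).2
      (hint.mono_set fun x hx => hu.trans_lt hx.1)
  have hR : ∀ R, r0 ≤ R → a * ∫ r in r0..R, F r ≤ ∫ r in Ioi r0, T r := fun R hR => by
    have hsub : Icc r0 R ⊆ Ioi 0 := fun x hx => hr0.trans_le hx.1
    refine (poincare_right hr0 hR (hqc.mono hsub) (fun r hr => hq0 r (hsub hr))
      (fun r hr => hqd r (hr0.trans hr.1)) (hfc.mono hsub) (fun r hr => hfd r (hr0.trans hr.1))
      (fun r hr => hhi r hr.1) (hTi hr0.le hR)).trans ?_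
    rw [intervalIntegral.integral_of_le hR]
    exact setIntegral_mono_set (hint.mono_set (Ioi_subset_Ioi hr0.le))
      ((ae_restrict_mem measurableSet_Ioi).mono fun r hr => hT0 r (hr0.trans hr))
      Ioc_subset_Ioi_self.eventuallyLE
  have hL : ∀ s, 0 < s → s ≤ r0 → a * ∫ r in s..r0, F r ≤ ∫ r in Ioc 0 r0, T r := fun s hs hsr => by
    have hsub : Icc s r0 ⊆ Ioi 0 := fun x hx => hs.trans_le hx.1
    refine (poincare_left hs hsr (hqc.mono hsub) (fun r hr => hq0 r (hsub hr))
      (fun r hr => hqd r (hs.trans hr.1)) (hfc.mono hsub) (fun r hr => hfd r (hs.trans hr.1))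
      (fun r hr => hlo r (hs.trans hr.1) hr.2) (hTi hs.le hsr)).trans ?_
    rw [intervalIntegral.integral_of_le hsr]
    exact setIntegral_mono_set (hint.mono_set Ioc_subset_Ioi_self)
      ((ae_restrict_mem measurableSet_Ioc).mono fun r hr => hT0 r hr.1)
      (Ioc_subset_Ioc_left hs.le).eventuallyLE
  have hFR : IntegrableOn F (Ioi r0) := by
    refine integrableOn_Ioi_of_intervalIntegral_norm_bounded ((∫ r in Ioi r0, T r) / a) r0
      (b := fun n : ℕ => r0 + n) (l := atTop) (fun n => ?_)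
      (tendsto_atTop_add_const_left _ _ tendsto_natCast_atTop_atTop)
      (Eventually.of_forall fun n => ?_)
    · exact ((hFc.mono fun x hx => hr0.trans_le hx.1).integrableOn_Icc).mono_set Ioc_subset_Icc_self
    · rw [le_div_iff₀' ha]
      refine le_trans (le_of_eq ?_) (hR (r0 + n) (by simp))
      congr 1
      refine intervalIntegral.integral_congr fun r hr => ?_
      rw [uIcc_of_le (by simp)] at hr
      exact Real.norm_of_nonneg (hF0 r (hr0.trans_le hr.1))
  have hFL : IntegrableOn F (Ioc 0 r0) := by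
    refine integrableOn_Ioc_of_intervalIntegral_norm_bounded_left (a₀ := 0)
      (a := fun n : ℕ => r0 / ((n : ℝ) + 1)) (I := (∫ r in Ioc 0 r0, T r) / a) (l := atTop)
      (fun n => ?_) ?_ (Eventually.of_forall fun n => ?_)
    · exact ((hFc.mono fun x hx => (show (0 : ℝ) < r0 / ((n : ℝ) + 1) by positivity).trans_le
        hx.1).integrableOn_Icc).mono_set Ioc_subset_Icc_self
    · simpa [div_eq_mul_inv] using (tendsto_one_div_add_atTop_nhds_zero_nat (𝕜 := ℝ)).const_mul r0
    · have hs : 0 < r0 / ((n : ℝ) + 1) := by positivity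
      have hsr : r0 / ((n : ℝ) + 1) ≤ r0 :=
        div_le_self hr0.le (by linarith [n.cast_nonneg (α := ℝ)])
      rw [le_div_iff₀' ha]
      refine le_trans (le_of_eq ?_) (hL _ hs hsr)
      rw [intervalIntegral.integral_of_le hsr]
      congr 1
      exact setIntegral_congr_fun measurableSet_Ioc fun r hr =>
        Real.norm_of_nonneg (hF0 r (hs.trans hr.1))
  have hI : IntegrableOn F (Ioi 0) := by
    rw [← Ioc_union_Ioi_eq_Ioi hr0.le]
    exact hFL.union hFR
  refine ⟨hI, ?_⟩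
  have hsplit : ∀ (G : ℝ → ℝ), IntegrableOn G (Ioi 0) →
      ∫ r in Ioi (0 : ℝ), G r = (∫ r in Ioc 0 r0, G r) + ∫ r in Ioi r0, G r := fun G hG => by
    rw [← setIntegral_union (Ioc_disjoint_Ioi le_rfl) measurableSet_Ioi
      (hG.mono_set Ioc_subset_Ioi_self) (hG.mono_set (Ioi_subset_Ioi hr0.le)),
      Ioc_union_Ioi_eq_Ioi hr0.le]
  rw [hsplit F hI, hsplit T hint, mul_add]
  refine add_le_add ?_ ?_
  · have hlim : Tendsto (fun n : ℕ => a * ∫ r in r0 / ((n : ℝ) + 1)..r0, F r) atTop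
        (𝓝 (a * ∫ r in (0 : ℝ)..r0, F r)) := by
      refine Tendsto.const_mul a ?_
      have hc : ContinuousWithinAt (fun x => ∫ r in x..r0, F r) (Icc 0 r0) 0 := by
        have h1 : ContinuousOn (fun x => ∫ r in r0..x, F r) (uIcc r0 0) :=
          continuousOn_primitive_interval' ((intervalIntegrable_iff_integrableOn_Ioc_of_le hr0.le).2
            hFL).symm left_mem_uIcc
        rw [uIcc_of_ge hr0.le] at h1
        exact (h1.neg 0 (left_mem_Icc.2 hr0.le)).congr (fun x _ => integral_symm _ _)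
          (integral_symm _ _)
      refine hc.tendsto.comp (tendsto_nhdsWithin_iff.2 ⟨?_, Eventually.of_forall fun n =>
        ⟨by positivity, div_le_self hr0.le (by linarith [n.cast_nonneg (α := ℝ)])⟩⟩)
      simpa [div_eq_mul_inv] using (tendsto_one_div_add_atTop_nhds_zero_nat (𝕜 := ℝ)).const_mul r0
    rw [← intervalIntegral.integral_of_le hr0.le]
    rw [← intervalIntegral.integral_of_le hr0.le]
    refine le_of_tendsto hlim (Eventually.of_forall fun n => ?_)
    rw [intervalIntegral.integral_of_le hr0.le]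
    exact hL _ (by positivity) (div_le_self hr0.le (by linarith [n.cast_nonneg (α := ℝ)]))
  · exact le_of_tendsto ((intervalIntegral_tendsto_integral_Ioi r0 hFR tendsto_id).const_mul a)
      ((eventually_ge_atTop r0).mono fun R h => hR R h)

/-- A monotone slope has a crossing with `a / r`. -/
theorem exists_mode (ha : 0 < a) {W : ℝ → ℝ} (hW : MonotoneOn W (Ioi 0))
    {r1 : ℝ} (hr1 : 0 < r1) (hW1 : 0 < W r1) :
    ∃ r0 : ℝ, 0 < r0 ∧ (∀ r, 0 < r → r < r0 → W r ≤ a / r0) ∧ ∀ r, r0 < r → a / r0 ≤ W r := by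
  set S := {r : ℝ | 0 < r ∧ r * W r ≤ a} with hS
  have hne : S.Nonempty := by
    refine ⟨min r1 (a / W r1), lt_min hr1 (div_pos ha hW1), ?_⟩
    refine le_trans (mul_le_mul_of_nonneg_left (hW (lt_min hr1 (div_pos ha hW1)) hr1
      (min_le_left _ _)) (le_min hr1.le (div_pos ha hW1).le)) ?_
    rw [← le_div_iff₀ hW1]
    exact min_le_right _ _
  have hbd : BddAbove S := ⟨max r1 (a / W r1), fun r hr => by
    rcases le_total r r1 with h | h
    · exact h.trans (le_max_left _ _)
    · refine le_trans ?_ (le_max_right _ _)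
      rw [le_div_iff₀ hW1]
      exact (mul_le_mul_of_nonneg_left (hW hr1 hr.1 h) hr.1.le).trans hr.2⟩
  set r0 := sSup S with hr0
  have hpos : 0 < r0 := by
    obtain ⟨x, hx⟩ := hne
    exact hx.1.trans_le (le_csSup hbd hx)
  refine ⟨r0, hpos, fun r hr hlt => ?_, fun r hlt => ?_⟩
  · refine le_of_forall_gt_imp_ge_of_dense fun b hb => ?_
    have hb0 : 0 < b := (div_pos ha hpos).trans hb
    have hab : a / b < r0 := by
      rw [div_lt_iff₀ hb0, mul_comm]
      exact (div_lt_iff₀ hpos).1 hb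
    obtain ⟨x, hxS, hx⟩ := exists_lt_of_lt_csSup hne (max_lt hlt hab)
    refine (hW hr hxS.1 ((le_max_left _ _).trans hx.le)).trans ?_
    refine le_trans (le_div_iff₀' hxS.1 |>.2 hxS.2) ?_
    rw [div_le_iff₀ hxS.1, mul_comm]
    exact ((div_lt_iff₀ hb0).1 ((le_max_right _ _).trans_lt hx)).le
  · refine le_of_forall_lt_imp_le_of_dense fun b hb => ?_
    rcases le_or_gt b 0 with hb0 | hb0
    · refine hb0.trans (le_of_lt ?_)
      have hr' : 0 < r := hpos.trans hlt
      have hnot : ¬ r * W r ≤ a := fun h => not_lt.2 (le_csSup hbd ⟨hr', h⟩) hlt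
      exact pos_of_mul_pos_right (ha.trans (not_le.1 hnot)) hr'.le
    have hab : r0 < a / b := by
      rw [lt_div_iff₀ hb0, mul_comm]
      exact (lt_div_iff₀ hpos).1 hb
    obtain ⟨x, hx0, hx⟩ := exists_between (lt_min hlt hab)
    have hxp : 0 < x := hpos.trans hx0
    have hnot : ¬ x * W x ≤ a := fun h => not_lt.2 (le_csSup hbd ⟨hxp, h⟩) hx0
    refine le_trans ?_ (hW hxp (hpos.trans hlt) (hx.le.trans (min_le_left _ _)))
    refine le_trans ?_ ((div_le_iff₀' hxp).2 (not_le.1 hnot).le)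
    rw [le_div_iff₀ hxp, mul_comm]
    exact ((lt_div_iff₀ hb0).1 (hx.trans_le (min_le_right _ _))).le

/-- The variance for the weight `r ^ p exp (-V)`. -/
theorem radial_variance {p : ℕ} (hp : 1 ≤ p) {V W : ℝ → ℝ} (hVc : ContinuousOn V (Ioi 0))
    (hVd : ∀ r, 0 < r → HasDerivWithinAt V (W r) (Ioi r) r) (hW : MonotoneOn W (Ioi 0))
    {r1 : ℝ} (hr1 : 0 < r1) (hW1 : 0 < W r1)
    (hqi : IntegrableOn (fun r => r ^ p * Real.exp (-V r)) (Ioi 0))
    (hfc : ContinuousOn f (Ioi 0)) (hfd : ∀ r, 0 < r → HasDerivWithinAt f (f' r) (Ioi r) r)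
    (h1 : IntegrableOn (fun r => f r * (r ^ p * Real.exp (-V r))) (Ioi 0))
    (h2 : IntegrableOn (fun r => f r ^ 2 * (r ^ p * Real.exp (-V r))) (Ioi 0))
    (hint : IntegrableOn (fun r => r ^ 2 * f' r ^ 2 * (r ^ p * Real.exp (-V r))) (Ioi 0)) :
    (p : ℝ) * wvar (fun r => r ^ p * Real.exp (-V r)) f ≤
      wmean (fun r => r ^ p * Real.exp (-V r)) fun r => r ^ 2 * f' r ^ 2 := by
  set q := fun r => r ^ p * Real.exp (-V r) with hq
  have hp0 : (0 : ℝ) < p := by exact_mod_cast hp
  obtain ⟨r0, hr0, hlo, hhi⟩ := exists_mode hp0 hW hr1 hW1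
  have hq0 : ∀ r, 0 < r → 0 ≤ q r := fun r hr => by positivity
  have hqd : ∀ r, 0 < r → HasDerivWithinAt q (q r * ((p : ℝ) / r - W r)) (Ioi r) r := fun r hr => by
    refine ((hasDerivWithinAt_id r _).fun_pow p |>.fun_mul (hVd r hr).neg.exp).congr_deriv ?_
    obtain ⟨i, rfl⟩ : ∃ i, p = i + 1 := ⟨p - 1, by omega⟩
    simp only [hq, id, Nat.add_sub_cancel, Pi.neg_apply, pow_succ]
    push_cast
    field_simp
    ring
  obtain ⟨hFi, hF⟩ := poincare_Ioi (q := q) hp0 hr0 ((continuousOn_id.pow p).mul hVc.neg.rexp) hq0 hqd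
    hfc hfd (fun r hr hlt => by
      have h := mul_le_mul_of_nonneg_left (sub_le_sub_left (hlo r hr hlt) ((p : ℝ) / r)) (hq0 r hr)
      refine le_trans (le_of_eq ?_) h
      ring) (fun r hlt => by
      have hr : 0 < r := hr0.trans hlt
      have h := mul_le_mul_of_nonneg_left (sub_le_sub_left (hhi r hlt) ((p : ℝ) / r)) (hq0 r hr)
      refine h.trans (le_of_eq ?_)
      ring) hint
  have hZ : 0 < ∫ r in Ioi (0 : ℝ), q r := by
    rw [setIntegral_pos_iff_support_of_nonneg_ae
      ((ae_restrict_mem measurableSet_Ioi).mono hq0) hqi]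
    refine lt_of_lt_of_le ?_ (measure_mono (show Ioi (0 : ℝ) ⊆ Function.support q ∩ Ioi 0 from
      fun r hr => ⟨(mul_pos (pow_pos (mem_Ioi.1 hr) p) (Real.exp_pos _)).ne', hr⟩))
    simp
  refine (mul_le_mul_of_nonneg_left (wvar_le hqi hZ h1 h2 (f r0)) hp0.le).trans ?_
  rw [wmean, wmean, mul_div_assoc']
  exact div_le_div_of_nonneg_right hF hZ.le

end Poincare

end Vale.Agent.P237.Petty.Lift.Large
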