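import Vale.Agent.P237.Petty.Lift.Large.Level

/-!
# P237: the derivatives of the section integrals of the lift

At a height `y` the radius `r = |w|` of the lift has the law `r ^ p * exp (-pot)`. Its mass, the
mean of `gaugeH = 2 pot - y ^ 2 - r ^ 2` and the relative entropy against the chi law are
differentiable away from the centre, with the covariances below as derivatives.
-/

namespace Vale.Agent.P237.Petty.Lift.Large

open MeasureTheory Set Filter Topology

variable {g : ℝ → ℝ} {p : ℕ}

theorem radW_def (p : ℕ) (g : ℝ → ℝ) (y r : ℝ) :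
    radW p g y r = r ^ p * Real.exp (-pot g y r) := by
  rw [radW, pot, neg_div]

/-- A section integral. -/
noncomputable def secInt (p : ℕ) (g : ℝ → ℝ) (y : ℝ) (Φ : ℝ → ℝ) : ℝ :=
  ∫ r in Ioi (0 : ℝ), radW p g y r * Φ r

/-- The mass of a section. -/
noncomputable def secMass (p : ℕ) (g : ℝ → ℝ) (y : ℝ) : ℝ := secInt p g y fun _ => 1

/-- The conditional mean at a height. -/
noncomputable def condE (p : ℕ) (g : ℝ → ℝ) (y : ℝ) (Φ : ℝ → ℝ) : ℝ :=
  secInt p g y Φ / secMass p g y

theorem condE_eq_wmean (p : ℕ) (g : ℝ → ℝ) (y : ℝ) (Φ : ℝ → ℝ) :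
    condE p g y Φ = wmean (radW p g y) Φ := by
  have e : ∀ r, radW p g y r * Φ r = Φ r * radW p g y r := fun r => mul_comm _ _
  simp only [condE, wmean, secMass, secInt, mul_one, e]

theorem gaugeH_def (g : ℝ → ℝ) (y r : ℝ) :
    gaugeH g y r = 2 * pot g y r - y ^ 2 - r ^ 2 := by
  rw [gaugeH, pot]
  ring

/-- The conditional mean of the excess. -/
noncomputable def hMean (p : ℕ) (g : ℝ → ℝ) (y : ℝ) : ℝ := condE p g y (gaugeH g y)

/-- The conditional mean of the derivative of the potential. -/
noncomputable def meanY (p : ℕ) (g : ℝ → ℝ) (y : ℝ) : ℝ := condE p g y (potY g y)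

/-- The conditional covariance of the excess and the derivative of the potential. -/
noncomputable def covY (p : ℕ) (g : ℝ → ℝ) (y : ℝ) : ℝ :=
  condE p g y (fun r => gaugeH g y r * potY g y r) - hMean p g y * meanY p g y

/-- The relative entropy of the radius against the chi law. -/
noncomputable def radKL (p : ℕ) (g : ℝ → ℝ) (y : ℝ) : ℝ :=
  wmean (radW p g y) (fun r => -(gaugeN g y r ^ 2) / 2 + r ^ 2 / 2) -
    Real.log (secMass p g y / radial p)

/-- The Gaussian majorant of the weights. -/
noncomputable def envelope (p j : ℕ) (g : ℝ → ℝ) (r : ℝ) : ℝ :=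
  r ^ p * (1 + r) ^ j * Real.exp (-((r / g 0) ^ 2) / 2)

section

variable (hg : Regular g)
include hg

theorem integrableOn_envelope (p j : ℕ) : IntegrableOn (envelope p j g) (Ioi 0) := by
  have hg0 := hg.pos
  have e : envelope p j g = fun r => ∑ i ∈ Finset.range (j + 1),
      (j.choose i : ℝ) * g 0 ^ (i + p) * ((r / g 0) ^ (i + p) * Real.exp (-((r / g 0) ^ 2) / 2)) := by
    funext r
    rw [envelope, add_comm (1 : ℝ), add_pow, Finset.mul_sum, Finset.sum_mul]
    refine Finset.sum_congr rfl fun i _ => ?_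
    have hne : g 0 ^ (i + p) ≠ 0 := pow_ne_zero _ hg0.ne'
    have e : g 0 ^ (i + p) * (r / g 0) ^ (i + p) = r ^ (i + p) := by
      rw [← mul_pow, mul_div_cancel₀ _ hg0.ne']
    rw [one_pow, mul_one, mul_assoc (j.choose i : ℝ), ← mul_assoc (g 0 ^ (i + p)), e, pow_add r]
    ring
  rw [e]
  refine integrable_finsetSum _ fun i _ => Integrable.const_mul ?_ _
  have h := (integrableOn_Ioi_comp_mul_left_iff
    (fun w => w ^ (i + p) * Real.exp (-(w ^ 2) / 2)) (0 : ℝ) (inv_pos.2 hg0)).2
    (by rw [mul_zero]; exact integrableOn_radial (i + p))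
  simp only [← div_eq_inv_mul] at h
  exact h

theorem exp_pot_le (y : ℝ) {r : ℝ} (hr : 0 ≤ r) :
    Real.exp (-pot g y r) ≤ Real.exp (-((r / g 0) ^ 2) / 2) := by
  refine Real.exp_le_exp.2 ?_
  rw [pot, neg_div, neg_le_neg_iff]
  exact div_le_div_of_nonneg_right
    (pow_le_pow_left₀ (div_nonneg hr hg.pos.le) (div_le_gaugeN hg y r) 2) two_pos.le

theorem measurable_potY (y : ℝ) : Measurable (potY g y) :=
  (continuous_gaugeN hg y).measurable.mul ((monotone_bestTest hg).measurable.comp
    ((continuous_gaugeN hg y).measurable.const_div y))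

theorem continuous_pot (y : ℝ) : Continuous (pot g y) := ((continuous_gaugeN hg y).pow 2).div_const 2

theorem continuous_gaugeH (y : ℝ) : Continuous (gaugeH g y) :=
  ((continuous_gaugeN hg y).pow 2).sub continuous_const |>.sub (continuous_pow 2)

theorem measurable_radW (y : ℝ) : Measurable (radW p g y) :=
  (measurable_id.pow_const p).mul (Real.measurable_exp.comp
    (((continuous_gaugeN hg y).pow 2).measurable.neg.div_const 2))

/-- A section integral of a function of polynomial growth converges. -/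
theorem integrableOn_sec (p : ℕ) {Φ : ℝ → ℝ} (hΦ : Measurable Φ) {C : ℝ} {j : ℕ}
    (hb : ∀ r, 0 < r → |Φ r| ≤ C * (1 + r) ^ j) (y : ℝ) :
    IntegrableOn (fun r => radW p g y r * Φ r) (Ioi 0) := by
  refine Integrable.mono' ((integrableOn_envelope hg p j).const_mul C)
    ((measurable_radW hg y).mul hΦ).aestronglyMeasurable ?_
  filter_upwards [ae_restrict_mem measurableSet_Ioi] with r hr
  have hr0 : 0 < r := hr
  rw [Real.norm_eq_abs, abs_mul, radW_def, abs_of_nonneg (by positivity), envelope]
  refine le_trans (mul_le_mul (mul_le_mul_of_nonneg_left (exp_pot_le hg y hr0.le) (by positivity))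
    (hb r hr0) (abs_nonneg _) (by positivity)) (le_of_eq ?_)
  ring

theorem secMass_pos (p : ℕ) (y : ℝ) : 0 < secMass p g y := by
  rw [secMass, secInt]
  simp only [mul_one]
  refine (setIntegral_pos_iff_support_of_nonneg_ae ?_ ?_).2 ?_
  · filter_upwards [ae_restrict_mem measurableSet_Ioi] with r hr
    have hr0 : 0 < r := hr
    show 0 ≤ radW p g y r
    unfold radW
    positivity
  · have h := integrableOn_sec hg p (measurable_const (a := (1 : ℝ))) (C := 1) (j := 0)
      (fun r _ => by simp) y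
    simpa using h
  · refine lt_of_lt_of_le (show (0 : ENNReal) < volume (Ioi (0 : ℝ)) by simp)
      (measure_mono fun r hr => ⟨?_, hr⟩)
    exact (mul_pos (pow_pos (mem_Ioi.1 hr) p) (Real.exp_pos _)).ne'

/-- Size bounds that hold near a height. -/
theorem size_bounds {y z : ℝ} (hz : |z - y| ≤ 1) {r : ℝ} (hr : 0 ≤ r) :
    gaugeN g z r ≤ (|y| + 1 + 1 / g 0) * (1 + r) := by
  have h0 := hg.pos
  have h1 := gaugeN_le hg z hr
  have h2 : |z| ≤ |y| + 1 := by linarith [abs_sub_abs_le_abs_sub z y]
  have h3 : r / g 0 = 1 / g 0 * r := by ring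
  nlinarith [abs_nonneg y, div_nonneg zero_le_one h0.le]

theorem abs_gaugeH_le {y z : ℝ} (hz : |z - y| ≤ 1) {r : ℝ} (hr : 0 ≤ r) :
    |gaugeH g z r| ≤ 2 * (|y| + 1 + 1 / g 0) ^ 2 * (1 + r) ^ 2 := by
  have h1 := size_bounds hg hz hr
  have h2 := gaugeN_nonneg hg z r
  have h3 := abs_le_gaugeN hg z r
  have hC : 1 ≤ |y| + 1 + 1 / g 0 := by
    linarith [abs_nonneg y, div_nonneg zero_le_one hg.pos.le]
  have h4 : gaugeN g z r ^ 2 ≤ ((|y| + 1 + 1 / g 0) * (1 + r)) ^ 2 := pow_le_pow_left₀ h2 h1 2
  have h5 : z ^ 2 ≤ gaugeN g z r ^ 2 := by rw [← sq_abs z]; exact pow_le_pow_left₀ (abs_nonneg z) h3 2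
  have h6 : r ^ 2 ≤ ((|y| + 1 + 1 / g 0) * (1 + r)) ^ 2 := by
    refine pow_le_pow_left₀ hr ?_ 2
    nlinarith
  rw [gaugeH_def, pot, abs_le]
  constructor <;> nlinarith [sq_nonneg (gaugeN g z r), sq_nonneg z, sq_nonneg r]

theorem abs_potY_le' {y z : ℝ} (hz : |z - y| ≤ 1) {r : ℝ} (hr : 0 ≤ r) :
    |potY g z r| ≤ (|y| + 1 + 1 / g 0) * (1 + r) :=
  (abs_potY_le hg z r).trans (size_bounds hg hz hr)

theorem abs_exp_pot_sub {y z z' : ℝ} (hz : |z - y| ≤ 1) (hz' : |z' - y| ≤ 1) {r : ℝ}
    (hr : 0 ≤ r) :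
    |Real.exp (-pot g z r) - Real.exp (-pot g z' r)| ≤
      Real.exp (-((r / g 0) ^ 2) / 2) * ((|y| + 1 + 1 / g 0) * (1 + r)) * |z - z'| := by
  have hs : |pot g z r - pot g z' r| ≤ ((|y| + 1 + 1 / g 0) * (1 + r)) * |z - z'| := by
    refine (abs_pot_sub hg z' z r).trans ?_
    rw [mul_comm]
    refine mul_le_mul_of_nonneg_right ?_ (abs_nonneg _)
    linarith [size_bounds hg hz hr, size_bounds hg hz' hr]
  have key : ∀ u v : ℝ, v ≤ u → Real.exp (-v) - Real.exp (-u) ≤ Real.exp (-v) * (u - v) :=
    fun u v huv => by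
      have h := Real.add_one_le_exp (v - u)
      have e : Real.exp (-u) = Real.exp (-v) * Real.exp (v - u) := by
        rw [← Real.exp_add]; ring_nf
      nlinarith [Real.exp_pos (-v)]
  have hb := exp_pot_le hg z hr
  have hb' := exp_pot_le hg z' hr
  rw [mul_assoc]
  refine le_trans ?_ (mul_le_mul_of_nonneg_left hs (Real.exp_pos _).le)
  rcases le_total (pot g z r) (pot g z' r) with h | h
  · rw [abs_of_nonneg (sub_nonneg.2 (Real.exp_le_exp.2 (neg_le_neg h))),
      abs_of_nonpos (sub_nonpos.2 h), neg_sub]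
    exact (key _ _ h).trans (mul_le_mul_of_nonneg_right hb (sub_nonneg.2 h))
  · rw [abs_of_nonpos (sub_nonpos.2 (Real.exp_le_exp.2 (neg_le_neg h))),
      abs_of_nonneg (sub_nonneg.2 h), neg_sub]
    exact (key _ _ h).trans (mul_le_mul_of_nonneg_right hb' (sub_nonneg.2 h))

/-- Differentiation of a section integral in the height. -/
theorem hasDerivAt_secInt (p : ℕ) {y : ℝ} (hy : y ≠ 0) {Φ : ℝ → ℝ → ℝ} {Φ' : ℝ → ℝ} {C : ℝ}
    {j : ℕ} (hm : ∀ z, Measurable (Φ z)) (hm' : Measurable Φ')
    (hb : ∀ z r, |z - y| ≤ 1 → 0 < r → |Φ z r| ≤ C * (1 + r) ^ j)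
    (hl : ∀ z z' r, |z - y| ≤ 1 → |z' - y| ≤ 1 → 0 < r →
      |Φ z r - Φ z' r| ≤ C * (1 + r) ^ j * |z - z'|)
    (hd : ∀ᵐ r ∂volume.restrict (Ioi (0 : ℝ)), HasDerivAt (fun z => Φ z r) (Φ' r) y) :
    IntegrableOn (fun r => radW p g y r * (Φ' r - Φ y r * potY g y r)) (Ioi 0) ∧
      HasDerivAt (fun z => secInt p g z (Φ z))
        (secInt p g y fun r => Φ' r - Φ y r * potY g y r) y := by
  set A := |y| + 1 + 1 / g 0 with hA
  have hA0 : 0 ≤ A := by linarith [abs_nonneg y, div_nonneg zero_le_one hg.pos.le]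
  refine hasDerivAt_integral_of_dominated_loc_of_lip
    (F := fun z r => radW p g z r * Φ z r)
    (bound := fun r => C * (1 + A) * envelope p (j + 1) g r)
    (s := Metric.closedBall y 1) (Metric.closedBall_mem_nhds y one_pos)
    (Eventually.of_forall fun z => ((measurable_radW hg z).mul (hm z)).aestronglyMeasurable)
    (integrableOn_sec hg p (hm y) (fun r hr => hb y r (by simp) hr) y)
    ((measurable_radW hg y).mul
      (hm'.sub ((hm y).mul (measurable_potY hg y)))).aestronglyMeasurable ?_
    ((integrableOn_envelope hg p (j + 1)).const_mul _) ?_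
  · filter_upwards [ae_restrict_mem measurableSet_Ioi] with r hr
    have hr0 : 0 < r := hr
    refine LipschitzOnWith.of_dist_le_mul fun z hz z' hz' => ?_
    rw [Metric.mem_closedBall, Real.dist_eq] at hz hz'
    have hC : 0 ≤ C * (1 + r) ^ j := (abs_nonneg _).trans (hb y r (by simp) hr0)
    rw [Real.dist_eq, Real.dist_eq, Real.coe_nnabs]
    refine le_trans ?_ (mul_le_mul_of_nonneg_right (le_abs_self _) (abs_nonneg _))
    have h1 := abs_exp_pot_sub hg hz hz' hr0.le
    have h2 := hl z z' r hz hz' hr0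
    have h3 := hb z' r hz' hr0
    have h4 := exp_pot_le hg z hr0.le
    have hrp : 0 ≤ r ^ p := pow_nonneg hr0.le p
    have e : radW p g z r * Φ z r - radW p g z' r * Φ z' r =
        r ^ p * (Real.exp (-pot g z r) * (Φ z r - Φ z' r) +
          (Real.exp (-pot g z r) - Real.exp (-pot g z' r)) * Φ z' r) := by
      rw [radW_def, radW_def]; ring
    rw [e, abs_mul, abs_of_nonneg hrp, envelope]
    set E := Real.exp (-((r / g 0) ^ 2) / 2)
    have hE : 0 ≤ E := (Real.exp_pos _).le
    have h5 : |Real.exp (-pot g z r) * (Φ z r - Φ z' r) +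
        (Real.exp (-pot g z r) - Real.exp (-pot g z' r)) * Φ z' r| ≤
        E * (C * (1 + r) ^ j * |z - z'|) + E * (A * (1 + r)) * |z - z'| * (C * (1 + r) ^ j) := by
      refine (abs_add_le _ _).trans (add_le_add ?_ ?_)
      · rw [abs_mul, abs_of_pos (Real.exp_pos _)]
        exact mul_le_mul h4 h2 (abs_nonneg _) hE
      · rw [abs_mul]
        exact mul_le_mul h1 h3 (abs_nonneg _) (by positivity)
    refine (mul_le_mul_of_nonneg_left h5 hrp).trans ?_
    have h6 : 1 + A * (1 + r) ≤ (1 + A) * (1 + r) := by nlinarith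
    have h7 := mul_le_mul_of_nonneg_left h6
      (mul_nonneg (mul_nonneg (mul_nonneg hrp hE) hC) (abs_nonneg (z - z')))
    rw [pow_succ]
    linarith
  · filter_upwards [hd, ae_hasDerivAt_pot hg hy] with r h1 h2
    simp only [radW_def]
    refine ((h2.fun_neg.exp.const_mul (r ^ p)).mul h1).congr_deriv ?_
    ring

theorem hasDerivAt_secMass (p : ℕ) {y : ℝ} (hy : y ≠ 0) :
    HasDerivAt (secMass p g) (-secInt p g y (potY g y)) y := by
  have h := (hasDerivAt_secInt hg p hy (Φ := fun _ _ => 1) (Φ' := fun _ => 0) (C := 1) (j := 0)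
    (fun _ => measurable_const) measurable_const (fun z r _ _ => by simp)
    (fun z z' r _ _ _ => by simp)
    (Eventually.of_forall fun r => hasDerivAt_const y (1 : ℝ))).2
  refine h.congr_deriv ?_
  rw [secInt, secInt, ← integral_neg]
  exact setIntegral_congr_fun measurableSet_Ioi fun r _ => by ring

/-- The mean excess has the covariance in its derivative. -/
theorem hasDerivAt_hMean (p : ℕ) {y : ℝ} (hy : y ≠ 0) :
    HasDerivAt (hMean p g) (2 * (meanY p g y - y) - covY p g y) y := by
  set A := |y| + 1 + 1 / g 0 with hA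
  have hA1 : 1 ≤ A := by linarith [abs_nonneg y, div_nonneg zero_le_one hg.pos.le]
  have hm' : Measurable fun r => 2 * potY g y r - 2 * y :=
    ((measurable_potY hg y).const_mul 2).sub_const _
  have hlip : ∀ z z' r, |z - y| ≤ 1 → |z' - y| ≤ 1 → 0 < r →
      |gaugeH g z r - gaugeH g z' r| ≤ 4 * A ^ 2 * (1 + r) ^ 2 * |z - z'| := fun z z' r hz hz' hr => by
    have h1 := abs_pot_sub hg z' z r
    have h2 : (gaugeN g z' r + gaugeN g z r) / 2 ≤ A * (1 + r) := by
      linarith [size_bounds hg hz hr.le, size_bounds hg hz' hr.le]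
    have h3 : |z + z'| ≤ 2 * A := by
      have := abs_sub_abs_le_abs_sub z y
      have := abs_sub_abs_le_abs_sub z' y
      have := abs_add_le z z'
      have := div_nonneg zero_le_one hg.pos.le
      linarith
    have e : gaugeH g z r - gaugeH g z' r =
        2 * (pot g z r - pot g z' r) - (z - z') * (z + z') := by
      rw [gaugeH_def, gaugeH_def]; ring
    rw [e]
    refine (abs_sub _ _).trans ?_
    rw [abs_mul, abs_two, abs_mul]
    have h4 := mul_le_mul_of_nonneg_left h2 (abs_nonneg (z - z'))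
    have h5 := mul_le_mul_of_nonneg_left h3 (abs_nonneg (z - z'))
    have hA1r : 1 ≤ A * (1 + r) := by nlinarith
    have h6 : A * (1 + r) ≤ A ^ 2 * (1 + r) ^ 2 := by
      rw [← mul_pow, pow_two]; exact le_mul_of_one_le_left (by linarith) hA1r
    have h7 : A ≤ A ^ 2 * (1 + r) ^ 2 := by nlinarith
    nlinarith [abs_nonneg (z - z')]
  have h := hasDerivAt_secInt hg p hy (Φ := gaugeH g) (Φ' := fun r => 2 * potY g y r - 2 * y)
    (C := 4 * A ^ 2) (j := 2) (fun z => (continuous_gaugeH hg z).measurable) hm'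
    (fun z r hz hr => (abs_gaugeH_le hg (y := y) hz hr.le).trans (by nlinarith [sq_nonneg A, sq_nonneg (1 + r)]))
    hlip (by
      filter_upwards [ae_hasDerivAt_pot hg hy] with r hr
      simp only [gaugeH_def]
      exact (((hr.const_mul 2).sub (hasDerivAt_pow 2 y)).sub_const (r ^ 2)).congr_deriv
        (by norm_num))
  have hZ := secMass_pos hg p y
  refine (h.2.div (hasDerivAt_secMass hg p hy) hZ.ne').congr_deriv ?_
  have iY : IntegrableOn (fun r => radW p g y r * potY g y r) (Ioi 0) :=
    integrableOn_sec hg p (measurable_potY hg y) (C := A) (j := 1)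
      (fun r hr => (abs_potY_le' hg (y := y) (by simp) hr.le).trans (by rw [pow_one])) y
  have i1 : IntegrableOn (fun r => radW p g y r * 1) (Ioi 0) :=
    integrableOn_sec hg p measurable_const (C := 1) (j := 0) (fun r _ => by simp) y
  have iHY : IntegrableOn (fun r => radW p g y r * (gaugeH g y r * potY g y r)) (Ioi 0) :=
    integrableOn_sec hg p ((continuous_gaugeH hg y).measurable.mul (measurable_potY hg y))
      (C := 2 * A ^ 2 * A) (j := 3) (fun r hr => by
        rw [Pi.mul_apply, abs_mul]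
        refine (mul_le_mul (abs_gaugeH_le hg (y := y) (by simp) hr.le)
          (abs_potY_le' hg (y := y) (by simp) hr.le)
          (abs_nonneg _) (by positivity)).trans (le_of_eq ?_)
        ring) y
  have e : secInt p g y (fun r => 2 * potY g y r - 2 * y - gaugeH g y r * potY g y r) =
      2 * secInt p g y (potY g y) - 2 * y * secMass p g y -
        secInt p g y (fun r => gaugeH g y r * potY g y r) := by
    have ef : (fun r => radW p g y r * (2 * potY g y r - 2 * y - gaugeH g y r * potY g y r)) =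
        fun r => 2 * (radW p g y r * potY g y r) - 2 * y * (radW p g y r * 1) -
          radW p g y r * (gaugeH g y r * potY g y r) := funext fun r => by ring
    simp only [secMass, secInt]
    have i2 : IntegrableOn (fun r => 2 * (radW p g y r * potY g y r) -
        2 * y * (radW p g y r * 1)) (Ioi 0) := (iY.const_mul 2).sub (i1.const_mul (2 * y))
    rw [ef, integral_sub i2 iHY,
      integral_sub (iY.const_mul 2) (i1.const_mul (2 * y)), integral_const_mul, integral_const_mul]
  rw [e, covY, hMean, meanY, condE, condE, condE]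
  field_simp
  ring

theorem radKL_eq (p : ℕ) (y : ℝ) :
    radKL p g y =
      -(hMean p g y + y ^ 2) / 2 - Real.log (secMass p g y) + Real.log (radial p) := by
  have hZ := secMass_pos hg p y
  set A := |y| + 1 + 1 / g 0 with hA
  have iH : IntegrableOn (fun r => radW p g y r * gaugeH g y r) (Ioi 0) :=
    integrableOn_sec hg p (continuous_gaugeH hg y).measurable
      (fun r hr => abs_gaugeH_le hg (y := y) (by simp) hr.le) y
  have i1 : IntegrableOn (fun r => radW p g y r * 1) (Ioi 0) :=
    integrableOn_sec hg p measurable_const (C := 1) (j := 0) (fun r _ => by simp) y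
  have e : secInt p g y (fun r => -(gaugeN g y r ^ 2) / 2 + r ^ 2 / 2) =
      -(secInt p g y (gaugeH g y) + y ^ 2 * secMass p g y) / 2 := by
    have ef : (fun r => radW p g y r * (-(gaugeN g y r ^ 2) / 2 + r ^ 2 / 2)) =
        fun r => -(radW p g y r * gaugeH g y r + y ^ 2 * (radW p g y r * 1)) / 2 :=
      funext fun r => by rw [gaugeH_def, pot]; ring
    simp only [secMass, secInt]
    rw [ef, integral_div, integral_neg, integral_add iH (i1.const_mul _), integral_const_mul]
  rw [radKL, ← condE_eq_wmean, condE, e, Real.log_div hZ.ne' (radial_pos p).ne', hMean, condE]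
  field_simp
  ring

/-- Half the covariance is the derivative of the radial entropy. -/
theorem hasDerivAt_radKL (p : ℕ) {y : ℝ} (hy : y ≠ 0) :
    HasDerivAt (radKL p g) (covY p g y / 2) y := by
  rw [funext (radKL_eq hg p)]
  have h1 := ((hasDerivAt_hMean hg p hy).add (hasDerivAt_pow 2 y)).neg.div_const 2
  have h2 := (hasDerivAt_secMass hg p hy).log (secMass_pos hg p y).ne'
  refine ((h1.sub h2).add_const (Real.log (radial p))).congr_deriv ?_
  rw [meanY, condE]
  simp only [Nat.cast_ofNat, Nat.add_one_sub_one, pow_one]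
  ring

end

end Vale.Agent.P237.Petty.Lift.Large
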