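import Vale.Agent.P237.Petty.Lift.Large.Moments
import Vale.Agent.P237.Petty.Lift.Polar

/-!
# P237: the totals of the lift over the heights

Integrated over the heights, the sections give the mass, the second moment of the radius, the
square of the gauge, and the mean square of the derivative of the potential, which is `jInt`.
-/

namespace Vale.Agent.P237.Petty.Lift.Large

open MeasureTheory Set Filter Topology
open Stam (wt core_of_mem slice)

variable {g : ℝ → ℝ} {p : ℕ}

/-- The total mass of the sections of a profile with the volume of the circle. -/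
noncomputable def totMass (p : ℕ) : ℝ := radial (p + 3) * circ (p + 1) / ((p : ℝ) + 1)

theorem totMass_pos (p : ℕ) : 0 < totMass p :=
  div_pos (mul_pos (radial_pos _) (circ_pos _)) (by positivity)

section

variable (hg : Regular g)
include hg

omit hg in
theorem integral_core_pow (k : ℕ) :
    ∫ t in (-1 : ℝ)..1, Stam.core (fun t => g t ^ k) t = ∫ t in (-1 : ℝ)..1, g t ^ k :=
  integral_congr_Ioo fun _ ht => core_of_mem ht

/-- The total of a slice. -/
theorem integral_slice_pow (j k : ℕ) :
    Integrable (slice j (Stam.core fun t => g t ^ k)) ∧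
      ∫ y, slice j (Stam.core fun t => g t ^ k) y = radial (j + 1) * ∫ t in (-1 : ℝ)..1, g t ^ k := by
  obtain ⟨C, -, hC⟩ := Stam.core_bound hg
  have h := Stam.slice_mix j (Stam.measurable_core_pow hg k) (Stam.abs_core_pow_le hC k)
    (h := fun _ => 1) continuous_const (A := 1) fun s => by
      rw [abs_one, one_mul]
      exact one_le_pow₀ (by linarith [abs_nonneg s])
  simp only [one_mul, integral_mul_const, Stam.integral_wt, integral_core_pow]  at h
  exact h

/-- The total mass and the totals of the square radius and of the square gauge. -/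
theorem integral_sections (p : ℕ) (hvol : ∫ t in (-1 : ℝ)..1, g t ^ (p + 1) = circ (p + 1)) :
    (Integrable (secMass p g) ∧ ∫ y, secMass p g y = totMass p) ∧
    (Integrable (fun y => secInt p g y fun r => r ^ 2) ∧
      ∫ y, secInt p g y (fun r => r ^ 2) = totMass p * ((((p : ℝ) + 4) * ((p : ℝ) + 1) /
        ((p : ℝ) + 3)) * (∫ t in (-1 : ℝ)..1, g t ^ (p + 3)) / circ (p + 1))) ∧
    (Integrable (fun y => secInt p g y fun r => gaugeN g y r ^ 2) ∧
      ∫ y, secInt p g y (fun r => gaugeN g y r ^ 2) = totMass p * ((p : ℝ) + 2)) := by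
  obtain ⟨i1, e1⟩ := integral_slice_pow hg (p + 2) (p + 1)
  obtain ⟨i2, e2⟩ := integral_slice_pow hg (p + 4) (p + 3)
  obtain ⟨i3, e3⟩ := integral_slice_pow hg (p + 4) (p + 1)
  rw [hvol] at e1 e3
  have h5 : radial (p + 4 + 1) = ((p : ℝ) + 4) * radial (p + 3) := by
    rw [show p + 4 + 1 = p + 3 + 2 by omega, radial_step]
    push_cast
    ring
  rw [h5] at e2 e3
  rw [show p + 2 + 1 = p + 3 from rfl] at e1
  have hm : (p : ℝ) + 1 ≠ 0 := by positivity
  have hc := (circ_pos (p + 1)).ne'
  refine ⟨⟨?_, ?_⟩, ⟨?_, ?_⟩, ⟨?_, ?_⟩⟩
  · rw [funext (secMass_eq hg p)]; exact i1.div_const _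
  · rw [funext (secMass_eq hg p), integral_div]
    simp only [liftDens, e1, totMass]
  · rw [funext fun y => (section_values hg p y).2.1]; exact i2.div_const _
  · rw [funext fun y => (section_values hg p y).2.1, integral_div, e2, totMass]
    field_simp
  · rw [funext fun y => (section_values hg p y).2.2]
    exact (i3.div_const _).sub ((i1.div_const _).const_mul 2)
  · rw [funext fun y => (section_values hg p y).2.2]
    simp only [liftDens]
    rw [integral_sub (i3.div_const _) ((i1.div_const _).const_mul 2), integral_const_mul,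
      integral_div, integral_div, e1, e3, totMass]
    field_simp
    ring

theorem secInt_potY_sq_even (p : ℕ) (y : ℝ) :
    secInt p g |y| (fun r => potY g |y| r ^ 2) = secInt p g y (fun r => potY g y r ^ 2) := by
  rcases abs_choice y with e | e <;> rw [e]
  rcases eq_or_ne y 0 with rfl | hy
  · rw [neg_zero]
  refine integral_congr_ae ?_
  filter_upwards [potY_neg hg hy] with r hr
  rw [radW_def, radW_def, pot, pot, gaugeN_even hg.even, hr, neg_sq]

/-- The mean square of the derivative of the potential is the Fisher integral along the axis. -/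
theorem integral_potY_sq (p : ℕ) :
    Integrable (fun y => secInt p g y fun r => potY g y r ^ 2) ∧
      ∫ y, secInt p g y (fun r => potY g y r ^ 2) =
        radial (p + 3) * jInt p g / ((p : ℝ) + 1) := by
  set W := fun t : ℝ => g t ^ p * slopeR g t ^ 2 / icept g t with hW
  set Q : ℝ → ℝ := (Ioo (0 : ℝ) 1).indicator W with hQdef
  have hgm : Measurable ((Ioo (0 : ℝ) 1).indicator g) := by
    have hgc : Continuous fun t => g (max 0 (min 1 t)) :=
      hg.cont.comp_continuous (by fun_prop) fun t =>
        ⟨by linarith [le_max_left 0 (min 1 t)], max_le zero_le_one (min_le_left _ _)⟩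
    have e : (Ioo (0 : ℝ) 1).indicator g =
        (Ioo (0 : ℝ) 1).indicator fun t => g (max 0 (min 1 t)) := by
      refine indicator_congr fun t ht => ?_
      rw [min_eq_right ht.2.le, max_eq_right ht.1.le]
    rw [e]
    exact hgc.measurable.indicator measurableSet_Ioo
  have hsm : Measurable (slopeR g) := by
    have : slopeR g = fun t => derivWithin g (Ici t) t :=
      funext fun t => derivWithin_Ioi_eq_Ici g t
    rw [this]
    exact measurable_derivWithin_Ici g
  have hQm : Measurable Q := by
    have e : Q = (Ioo (0 : ℝ) 1).indicator fun t => (Ioo (0 : ℝ) 1).indicator g t ^ p *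
        slopeR g t ^ 2 / ((Ioo (0 : ℝ) 1).indicator g t - t * slopeR g t) := by
      refine indicator_congr fun t ht => ?_
      simp only [hW, icept, indicator_of_mem ht]
    rw [e]
    exact (((hgm.pow_const p).mul (hsm.pow_const 2)).div
      (hgm.sub (measurable_id.mul hsm))).indicator measurableSet_Ioo
  have hi : IntervalIntegrable W volume 0 1 := (Ident.integrable_jInt hg p).mono_set (by
    rw [uIcc_of_le zero_le_one, uIcc_of_le (by norm_num)]
    exact Icc_subset_Icc (by norm_num) le_rfl)
  rw [intervalIntegrable_iff_integrableOn_Ioo_of_le zero_le_one] at hi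
  have hQi : Integrable Q (volume.restrict (Ioo (0 : ℝ) 1)) :=
    hi.congr ((indicator_ae_eq_restrict measurableSet_Ioo).symm)
  have hwt : ∀ R, R * wt (p + 2) R = wt (p + 3) R := fun R => by simp only [wt]; ring
  have hI : Integrable (fun z : ℝ × ℝ => z.2 * (wt (p + 2) z.2 * Q z.1)) stateMeasure :=
    (hQi.mul_prod (Stam.integrableOn_wt (p + 3))).congr (Eventually.of_forall fun z => by
      show Q z.1 * wt (p + 3) z.2 = z.2 * (wt (p + 2) z.2 * Q z.1)
      rw [← mul_assoc, hwt, mul_comm])
  obtain ⟨ha, hb, hv⟩ := polar_swap (F := fun t R => wt (p + 2) R * Q t)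
    (((Stam.continuous_wt _).measurable.comp measurable_snd).mul (hQm.comp measurable_fst)) hI
  set c := g 1 ^ (p + 1) / ((p : ℝ) + 1) with hc
  have hface : IntegrableOn (fun y => c * wt (p + 3) y) (Ioi 0) :=
    (Stam.integrableOn_wt (p + 3)).const_mul c
  have hpt : EqOn (fun y => secInt p g y fun r => potY g y r ^ 2)
      (fun y => c * wt (p + 3) y + ∫ R in Ioi y, wt (p + 2) R * Q (y / R)) (Ioi 0) := fun y hy => by
    show secInt p g y (fun r => potY g y r ^ 2) = _
    rw [(secInt_potY_sq hg p hy).2, setIntegral_congr_fun measurableSet_Ioi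
      (g := fun R => wt (p + 2) R * Q (y / R)) fun R hR => by
        show _ = wt (p + 2) R * Q (y / R)
        rw [hQdef, indicator_of_mem]
        exact ⟨div_pos hy (lt_trans hy hR), (div_lt_one (lt_trans hy hR)).2 hR⟩]
    simp only [hc, wt]
    rw [mul_pow, neg_div]
    ring
  have hon : IntegrableOn (fun y => secInt p g y fun r => potY g y r ^ 2) (Ioi 0) :=
    (hface.add hb).congr_fun hpt.symm measurableSet_Ioi
  have habs : (fun y => secInt p g y fun r => potY g y r ^ 2) =
      fun y => (fun z => secInt p g z fun r => potY g z r ^ 2) |y| :=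
    funext fun y => (secInt_potY_sq_even hg p y).symm
  refine ⟨?_, ?_⟩
  · have hneg : IntegrableOn (fun y => secInt p g y fun r => potY g y r ^ 2) (Iio 0) := by
      have h := ((Measure.measurePreserving_neg (volume : Measure ℝ)).integrableOn_comp_preimage
        (Homeomorph.neg ℝ).measurableEmbedding).2 hon
      rw [show (fun x : ℝ => -x) ⁻¹' Ioi 0 = Iio 0 by ext; simp] at h
      refine h.congr_fun (fun y hy => ?_) measurableSet_Iio
      show secInt p g (-y) _ = secInt p g y _
      rw [← abs_of_neg (show y < 0 from hy)]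
      exact secInt_potY_sq_even hg p y
    rw [← integrableOn_univ, ← Iic_union_Ioi (a := (0 : ℝ))]
    exact ((integrableOn_Iic_iff_integrableOn_Iio (by finiteness)).2 hneg).union hon
  · rw [habs, integral_comp_abs (f := fun z => secInt p g z fun r => potY g z r ^ 2),
      setIntegral_congr_fun measurableSet_Ioi hpt, integral_add hface hb, integral_const_mul, hv,
      Stam.integral_wt]
    have hsplit : ∫ z, z.2 * (wt (p + 2) z.2 * Q z.1) ∂stateMeasure =
        (∫ t in Ioo (0 : ℝ) 1, Q t) * radial (p + 3) := by
      rw [← Stam.integral_wt, stateMeasure, ← integral_prod_mul Q (wt (p + 3))]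
      refine integral_congr_ae (Eventually.of_forall fun z => ?_)
      show z.2 * (wt (p + 2) z.2 * Q z.1) = Q z.1 * wt (p + 3) z.2
      rw [← mul_assoc, hwt, mul_comm]
    have hQint : ∫ t in Ioo (0 : ℝ) 1, Q t = ∫ t in (0 : ℝ)..1, W t := by
      rw [intervalIntegral.integral_of_le zero_le_one, integral_Ioc_eq_integral_Ioo]
      exact setIntegral_congr_fun measurableSet_Ioo fun t ht => indicator_of_mem ht _
    have hJ := Ident.integral_ae_even (Ident.integrable_jInt hg p) (by
      filter_upwards [Ident.ae_slopeR_neg hg] with t ht hto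
      rw [show icept g (-t) = icept g t by rw [icept, icept, ht hto, hg.even]; ring, ht hto, hg.even,
        neg_sq])
    rw [hsplit, hQint, jInt, hJ, hc]
    field_simp
    ring

end

end Vale.Agent.P237.Petty.Lift.Large
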